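import Mathlib

namespace Vale.Agent.Lib.P012

open Finset

section Sylvester

/-- The greedy (Sylvester) phase: after `i` steps the remaining fraction `A / B` has small value,
its numerator has not grown, and its denominator is controlled. -/
theorem sylvester (a b ρ : ℕ) (ha : 1 ≤ a) (hab : a < b) (i : ℕ) :
    ∃ (S : Finset ℕ) (A B : ℕ), (∀ n ∈ S, 2 ≤ n ∧ A * n < B) ∧ 0 < B ∧ A < B ∧ A ≤ a ∧
      B ≤ b * 2 ^ (2 * ρ) ∧ #S ≤ i ∧
      (a : ℚ) / b = ∑ n ∈ S, (1 : ℚ) / n + (A : ℚ) / B ∧
      (A = 0 ∨ 2 ^ ρ * A ≤ B ∨ 2 ^ (2 ^ i / 2) * A < B) := by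
  have hb0 : 0 < b := by omega
  induction i with
  | zero =>
    refine ⟨∅, a, b, by simp, hb0, hab, le_rfl, ?_, by simp, by simp, ?_⟩
    · exact Nat.le_mul_of_pos_right _ (by positivity)
    · right; right
      simpa using hab
  | succ i ih =>
    obtain ⟨S, A, B, h1, h2, h3, h4, h5, h6, h7, h8⟩ := ih
    by_cases hdone : A = 0 ∨ 2 ^ ρ * A ≤ B
    · refine ⟨S, A, B, h1, h2, h3, h4, h5, by omega, h7, ?_⟩
      rcases hdone with h | h
      · exact Or.inl h
      · exact Or.inr (Or.inl h)
    push Not at hdone
    obtain ⟨hA0, hlt⟩ := hdone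
    have hApos : 0 < A := Nat.pos_of_ne_zero hA0
    have h8' : 2 ^ (2 ^ i / 2) * A < B := by
      rcases h8 with h | h | h
      · exact absurd h hA0
      · omega
      · exact h
    have hdiv : A * (B / A) + B % A = B := Nat.div_add_mod B A
    have hmodlt : B % A < A := Nat.mod_lt _ hApos
    have hS_lt : ∀ n ∈ S, n ≤ B / A := by
      intro n hn
      have := (h1 n hn).2
      rw [Nat.le_div_iff_mul_le hApos]
      rw [mul_comm]
      exact this.le
    by_cases hdvd : B % A = 0
    · -- the exact case
      set m := B / A with hm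
      have hBm : A * m = B := by omega
      have hm2 : 2 ≤ m := by
        by_contra hcon
        have : m ≤ 1 := by omega
        have h9 : A * m ≤ A * 1 := Nat.mul_le_mul_left _ this
        omega
      have hS_lt' : ∀ n ∈ S, n < m := by
        intro n hn
        have h9 := (h1 n hn).2
        rw [← hBm] at h9
        exact lt_of_mul_lt_mul_left h9 (Nat.zero_le _)
      have hmS : m ∉ S := fun hmem => lt_irrefl _ (hS_lt' m hmem)
      refine ⟨insert m S, 0, B, ?_, h2, h2, by omega, h5, ?_, ?_, Or.inl rfl⟩
      · intro n hn
        rcases Finset.mem_insert.mp hn with rfl | hn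
        · exact ⟨hm2, by simpa using h2⟩
        · exact ⟨(h1 n hn).1, by simpa using h2⟩
      · rw [Finset.card_insert_of_notMem hmS]
        omega
      · rw [Finset.sum_insert hmS, h7]
        have hmQ : (m : ℚ) ≠ 0 := by
          have : 0 < m := by omega
          positivity
        have hAQ : (A : ℚ) ≠ 0 := by positivity
        have hBeq : (B : ℚ) = A * m := by exact_mod_cast hBm.symm
        rw [hBeq]
        simp only [Nat.cast_zero, zero_div, add_zero]
        field_simp
        ring
    · -- the generic case
      set m := B / A + 1 with hm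
      have hmA : B < A * m := by
        rw [hm, mul_add, mul_one]
        omega
      set A' := A * m - B with hA'
      have hA'lt : A' < A := by
        rw [hA', hm, mul_add, mul_one]
        omega
      have hA'eq : A' + B = A * m := by omega
      have hm2 : 2 ≤ m := by
        have : 1 ≤ B / A := by
          rw [Nat.le_div_iff_mul_le hApos]
          omega
        omega
      have hmle : m ≤ 2 ^ ρ := by
        have : B / A < 2 ^ ρ := by
          rw [Nat.div_lt_iff_lt_mul hApos]
          exact hlt
        omega
      have hS_lt' : ∀ n ∈ S, n < m := fun n hn => by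
        have := hS_lt n hn
        omega
      have hmS : m ∉ S := fun hmem => lt_irrefl _ (hS_lt' m hmem)
      have hBlt : B ≤ 2 ^ ρ * b := by
        have : 2 ^ ρ * A ≤ 2 ^ ρ * b := Nat.mul_le_mul_left _ (by omega)
        omega
      have hmpos : 0 < m := by omega
      refine ⟨insert m S, A', B * m, ?_, by positivity, ?_, by omega, ?_, ?_, ?_, ?_⟩
      · intro n hn
        rcases Finset.mem_insert.mp hn with rfl | hn
        · refine ⟨hm2, ?_⟩
          exact Nat.mul_lt_mul_of_pos_right (by omega) hmpos
        · refine ⟨(h1 n hn).1, ?_⟩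
          have h9 := (h1 n hn).2
          have h10 : A' * n ≤ A * n := Nat.mul_le_mul_right _ hA'lt.le
          have h11 : B ≤ B * m := Nat.le_mul_of_pos_right _ hmpos
          omega
      · have h11 : B ≤ B * m := Nat.le_mul_of_pos_right _ hmpos
        omega
      · calc B * m ≤ (2 ^ ρ * b) * 2 ^ ρ := Nat.mul_le_mul hBlt hmle
          _ = b * 2 ^ (2 * ρ) := by rw [two_mul, pow_add]; ring
      · rw [Finset.card_insert_of_notMem hmS]
        omega
      · rw [Finset.sum_insert hmS, h7]
        have hmQ : (m : ℚ) ≠ 0 := by positivity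
        have hBQ : (B : ℚ) ≠ 0 := by positivity
        have hA'Q : (A' : ℚ) + B = A * m := by exact_mod_cast hA'eq
        have hA'Q2 : (A' : ℚ) = A * m - B := by linarith
        push_cast
        rw [hA'Q2]
        field_simp
        ring
      · right; right
        rcases Nat.eq_zero_or_pos i with hi | hi
        · subst hi
          have h12 : 2 * A' < 2 * B := by omega
          have h13 : 2 * B ≤ B * m := by
            rw [mul_comm]
            exact Nat.mul_le_mul_left _ hm2
          simp only [zero_add, pow_one, Nat.reduceDiv, pow_one]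
          omega
        · set c := 2 ^ i / 2 with hc
          have hc2 : 2 ^ (i + 1) / 2 = 2 * c := by
            obtain ⟨i', rfl⟩ : ∃ i', i = i' + 1 := ⟨i - 1, by omega⟩
            rw [hc, pow_succ 2 (i' + 1), pow_succ 2 i']
            simp
            omega
          rw [hc2, two_mul, pow_add]
          have h14 : 2 ^ c ≤ m := by
            have : 2 ^ c ≤ B / A := by
              rw [Nat.le_div_iff_mul_le hApos]
              exact h8'.le
            omega
          calc 2 ^ c * 2 ^ c * A' ≤ 2 ^ c * 2 ^ c * A := Nat.mul_le_mul_left _ hA'lt.le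
            _ = 2 ^ c * (2 ^ c * A) := by ring
            _ < m * B := by
                exact Nat.mul_lt_mul_of_le_of_lt h14 h8' hmpos
            _ = B * m := mul_comm _ _

end Sylvester

end Vale.Agent.Lib.P012
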