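import Vale.Agent.Lib.P012.Refined
import Vale.Agent.Lib.P012.Sylvester

namespace Vale.Agent.Lib.P012

open Finset

section FinalTwo

theorem egyptian_of_rb (Q X h a b : ℕ) (hQ : 0 < Q) (ha : 1 ≤ a) (hab : a < b) (hbX : b ≤ X)
    (hq : a * (X * Q ^ 2) / b < X) (hrep : Rb Q X h) :
    ∃ S : Finset ℕ, (∀ n ∈ S, 2 ≤ n) ∧ #S ≤ 2 * h ∧
      ∑ n ∈ S, (1 : ℚ) / n = (a : ℚ) / b := by
  have hb0 : 0 < b := by omega
  have hX0 : 0 < X := by omega
  set N := X * Q ^ 2 with hNdef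
  have hN0 : 0 < N := by positivity
  have hb2 : 2 ≤ b := by omega
  set q := a * N / b with hq'
  set r := a * N % b with hr
  have hqr : b * q + r = a * N := Nat.div_add_mod _ _
  have hrlt : r < b := Nat.mod_lt _ hb0
  have hqlt : q < N := by
    apply Nat.div_lt_of_lt_mul
    exact Nat.mul_lt_mul_of_pos_right hab hN0
  obtain ⟨S1, hS1, hs1, hc1⟩ := hrep q hq
  obtain ⟨S2, hS2, hs2, hc2⟩ := hrep r (by omega)
  have hdvd1 : ∀ d ∈ S1, d ∣ N ∧ 0 < d ∧ d ≤ q := by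
    intro d hd
    have h1 := Nat.mem_divisors.mp (hS1 hd)
    refine ⟨h1.1, Nat.pos_of_dvd_of_pos h1.1 hN0, ?_⟩
    rw [← hs1]
    exact Finset.single_le_sum (f := fun x => x) (fun _ _ => Nat.zero_le _) hd
  have hdvd2 : ∀ d ∈ S2, d ∣ N ∧ 0 < d ∧ d ≤ r := by
    intro d hd
    have h1 := Nat.mem_divisors.mp (hS2 hd)
    refine ⟨h1.1, Nat.pos_of_dvd_of_pos h1.1 hN0, ?_⟩
    rw [← hs2]
    exact Finset.single_le_sum (f := fun x => x) (fun _ _ => Nat.zero_le _) hd
  have hinj1 : Set.InjOn (fun d => N / d) (S1 : Set ℕ) := by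
    intro x hx y hy hxy
    obtain ⟨h1, h2, _⟩ := hdvd1 x hx
    obtain ⟨h3, h4, _⟩ := hdvd1 y hy
    have h5 : N / x = N / y := hxy
    have h6 : N / x * x = N := Nat.div_mul_cancel h1
    have h7 : N / y * y = N := Nat.div_mul_cancel h3
    rw [← h5] at h7
    have h8 : 0 < N / x := Nat.div_pos (Nat.le_of_dvd hN0 h1) h2
    exact Nat.eq_of_mul_eq_mul_left h8 (h6.trans h7.symm)
  have hinj2 : Set.InjOn (fun d => b * N / d) (S2 : Set ℕ) := by
    intro x hx y hy hxy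
    obtain ⟨h1, h2, _⟩ := hdvd2 x hx
    obtain ⟨h3, h4, _⟩ := hdvd2 y hy
    have h1' : x ∣ b * N := h1.mul_left b
    have h3' : y ∣ b * N := h3.mul_left b
    have h5 : b * N / x = b * N / y := hxy
    have h6 : b * N / x * x = b * N := Nat.div_mul_cancel h1'
    have h7 : b * N / y * y = b * N := Nat.div_mul_cancel h3'
    rw [← h5] at h7
    have hbNpos : 0 < b * N := by positivity
    have h8 : 0 < b * N / x := Nat.div_pos (Nat.le_of_dvd hbNpos h1') h2
    exact Nat.eq_of_mul_eq_mul_left h8 (h6.trans h7.symm)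
  have hT2gt : ∀ d ∈ S2, N < b * N / d := by
    intro d hd
    obtain ⟨h1, h2, h3⟩ := hdvd2 d hd
    have h1' : d ∣ b * N := h1.mul_left b
    rw [Nat.lt_div_iff_mul_lt' h1']
    exact Nat.mul_lt_mul_of_pos_right (by omega) hN0
  have hT1le : ∀ d ∈ S1, N / d ≤ N := fun d _ => Nat.div_le_self _ _
  have hdisj : Disjoint (S1.image (fun d => N / d)) (S2.image (fun d => b * N / d)) := by
    rw [Finset.disjoint_left]
    intro x hx hx2
    obtain ⟨d, hd, rfl⟩ := Finset.mem_image.mp hx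
    obtain ⟨d2, hd2, hd2eq⟩ := Finset.mem_image.mp hx2
    have h1 := hT1le d hd
    have h2 := hT2gt d2 hd2
    rw [hd2eq] at h2
    omega
  refine ⟨S1.image (fun d => N / d) ∪ S2.image (fun d => b * N / d), ?_, ?_, ?_⟩
  · intro n hn
    rcases Finset.mem_union.mp hn with hn | hn
    · obtain ⟨d, hd, rfl⟩ := Finset.mem_image.mp hn
      obtain ⟨h1, h2, h3⟩ := hdvd1 d hd
      have h4 : d < N := by omega
      have h5 : N / d * d = N := Nat.div_mul_cancel h1
      by_contra hcon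
      push Not at hcon
      have h6 : N / d ≤ 1 := by omega
      have h7 : N / d * d ≤ 1 * d := Nat.mul_le_mul_right _ h6
      omega
    · obtain ⟨d, hd, rfl⟩ := Finset.mem_image.mp hn
      have := hT2gt d hd
      omega
  · refine (Finset.card_union_le _ _).trans ?_
    have h1 : #(S1.image (fun d => N / d)) ≤ #S1 := Finset.card_image_le
    have h2 : #(S2.image (fun d => b * N / d)) ≤ #S2 := Finset.card_image_le
    omega
  · rw [Finset.sum_union hdisj, Finset.sum_image hinj1, Finset.sum_image hinj2]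
    have hNQ : (N : ℚ) ≠ 0 := by positivity
    have hbQ : (b : ℚ) ≠ 0 := by positivity
    have h1 : ∑ d ∈ S1, (1 : ℚ) / ((N / d : ℕ) : ℚ) = (q : ℚ) / N := by
      rw [← hs1]
      push_cast
      rw [Finset.sum_div]
      refine Finset.sum_congr rfl fun d hd => ?_
      obtain ⟨h1, h2, _⟩ := hdvd1 d hd
      have hdQ : (d : ℚ) ≠ 0 := by positivity
      rw [Nat.cast_div h1 hdQ]
      field_simp
    have h2 : ∑ d ∈ S2, (1 : ℚ) / ((b * N / d : ℕ) : ℚ) = (r : ℚ) / (b * N) := by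
      rw [← hs2]
      push_cast
      rw [Finset.sum_div]
      refine Finset.sum_congr rfl fun d hd => ?_
      obtain ⟨h1, h2, _⟩ := hdvd2 d hd
      have hdQ : (d : ℚ) ≠ 0 := by positivity
      have h1' : d ∣ b * N := h1.mul_left b
      rw [Nat.cast_div h1' hdQ]
      push_cast
      field_simp
    rw [h1, h2]
    have h3 : (b : ℚ) * q + r = a * N := by exact_mod_cast hqr
    field_simp
    linarith

lemma pi_lower2 (K : ℕ) (hK : 12 ≤ K) :
    2 ^ (18 * K + 2) ≤ Nat.primeCounting (2 ^ (20 * K)) := by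
  have hpi := Chebyshev.pi_ge (2 ^ (20 * K))
  set n : ℕ := 2 ^ (20 * K) with hn
  have hlog2 : 0 < Real.log 2 := Real.log_pos (by norm_num)
  have hKpos : (0 : ℝ) < K := by
    have : 0 < K := by omega
    exact_mod_cast this
  have hlogn : Real.log n = (20 * K : ℝ) * Real.log 2 := by
    rw [hn]
    push_cast
    rw [Real.log_pow]
    push_cast
    ring
  have hnpos : (1 : ℝ) ≤ n := by
    have : 1 ≤ n := Nat.one_le_two_pow
    exact_mod_cast this
  have hlogn1 : Real.log ((n : ℝ) + 1) ≤ (20 * K + 1 : ℝ) * Real.log 2 := by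
    have h1 : ((n : ℝ) + 1) ≤ 2 * n := by linarith
    have h2 : Real.log ((n : ℝ) + 1) ≤ Real.log (2 * n) :=
      Real.log_le_log (by positivity) h1
    rw [Real.log_mul (by norm_num) (by positivity), hlogn] at h2
    linarith
  have hkey : (n : ℝ) ≤ 20 * K * (Nat.primeCounting n : ℝ) + 20 * K + 1 := by
    rw [hlogn, div_le_iff₀ (by positivity)] at hpi
    have h3 : (n : ℝ) * Real.log 2 ≤ (20 * K * (Nat.primeCounting n : ℝ) + 20 * K + 1) * Real.log 2 := by
      nlinarith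
    exact le_of_mul_le_mul_right h3 hlog2
  by_contra hcontra
  push Not at hcontra
  set Y := 2 ^ (18 * K + 2) with hY
  have hpiY : Nat.primeCounting n ≤ Y := by omega
  have hkey2 : n ≤ 20 * K * Y + 20 * K + 1 := by
    have h4 : (n : ℝ) ≤ 20 * K * (Y : ℝ) + 20 * K + 1 := by
      have h5 : (Nat.primeCounting n : ℝ) ≤ Y := by exact_mod_cast hpiY
      nlinarith
    exact_mod_cast h4
  set u : ℕ := 2 ^ K with hu
  have hKu : K < u := Nat.lt_two_pow_self
  have hu4096 : 4096 ≤ u := by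
    calc 4096 = 2 ^ 12 := by norm_num
      _ ≤ 2 ^ K := Nat.pow_le_pow_right (by norm_num) hK
  set v : ℕ := u ^ 18 with hv
  have huv : u ≤ v := by
    rw [hv]
    exact Nat.le_self_pow (by norm_num) _
  have hn2 : n = u ^ 2 * v := by
    rw [hn, hv, hu, ← pow_mul, ← pow_mul, ← pow_add]
    congr 1
    ring
  have hY2 : Y = 4 * v := by
    rw [hY, hv, hu, ← pow_mul, pow_add]
    have : K * 18 = 18 * K := by ring
    rw [this]
    ring
  rw [hn2, hY2] at hkey2
  have h6 : 20 * K * (4 * v) + 20 * K + 1 ≤ 20 * u * (4 * v) + 20 * u + 1 := by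
    have : 20 * K ≤ 20 * u := by omega
    have h7 := Nat.mul_le_mul_right (4 * v) this
    omega
  have h8 : 20 * u * (4 * v) + 20 * u + 1 < u ^ 2 * v := by
    have h9 : 4096 * (u * v) ≤ u ^ 2 * v := by
      have : u ^ 2 * v = u * (u * v) := by ring
      rw [this]
      exact Nat.mul_le_mul_right _ hu4096
    have h10 : u * u ≤ u * v := Nat.mul_le_mul_left _ huv
    nlinarith
  omega

/-- The candidate primes: their number, and the pool split. -/
lemma exists_pool (K : ℕ) (hK : 12 ≤ K) : ∃ A B : Finset ℕ,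
    (∀ e ∈ A, e.Prime ∧ e ≠ 2 ∧ 2 ^ (10 * K) ≤ e ∧ e ≤ 2 ^ (20 * K)) ∧
    (∀ e ∈ B, e.Prime ∧ e ≠ 2 ∧ e ≤ 2 ^ (20 * K)) ∧
    Disjoint A B ∧ #B = 2 ^ K ∧ 2 ^ (18 * K + 1) + 2 ^ K ≤ #A := by
  set P := Nat.primesLE (2 ^ (20 * K)) with hP
  set S := P.filter (fun e => 2 ^ (10 * K) ≤ e) with hS
  have hcardP : 2 ^ (18 * K + 2) ≤ #P := by
    rw [hP, Nat.primesLE_card_eq_primeCounting]
    exact pi_lower2 K hK
  have hfilter : #P ≤ #S + 2 ^ (10 * K) := by
    have h1 := Finset.card_filter_add_card_filter_not (s := P) (fun e => 2 ^ (10 * K) ≤ e)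
    rw [← hS] at h1
    have h2 : #(P.filter (fun e => ¬ 2 ^ (10 * K) ≤ e)) ≤ 2 ^ (10 * K) := by
      calc #(P.filter (fun e => ¬ 2 ^ (10 * K) ≤ e)) ≤ #(Finset.range (2 ^ (10 * K))) := by
            apply Finset.card_le_card
            intro e he
            have := (Finset.mem_filter.mp he).2
            simp only [Finset.mem_range]
            omega
        _ = 2 ^ (10 * K) := Finset.card_range _
    omega
  have h18 : 2 ^ (18 * K + 2) = 2 * 2 ^ (18 * K + 1) := by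
    rw [pow_succ]; ring
  have h10 : 2 ^ (10 * K) + 2 * 2 ^ K ≤ 2 ^ (18 * K + 1) := by
    have h1 : 2 ^ (10 * K) ≤ 2 ^ (18 * K) := Nat.pow_le_pow_right (by norm_num) (by omega)
    have h2 : 2 * 2 ^ K ≤ 2 ^ (18 * K) := by
      rw [← pow_succ']
      exact Nat.pow_le_pow_right (by norm_num) (by omega)
    have h3 : 2 ^ (18 * K + 1) = 2 * 2 ^ (18 * K) := by rw [pow_succ]; ring
    omega
  have hScard : 2 ^ K ≤ #S := by
    have : 0 < 2 ^ (18 * K + 1) := by positivity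
    omega
  obtain ⟨B, hBS, hBcard⟩ := Finset.exists_subset_card_eq hScard
  have hSprop : ∀ e ∈ S, e.Prime ∧ e ≠ 2 ∧ 2 ^ (10 * K) ≤ e ∧ e ≤ 2 ^ (20 * K) := by
    intro e he
    obtain ⟨h1, h2⟩ := Finset.mem_filter.mp he
    have hne : e ≠ 2 := by
      rintro rfl
      have h3 : 2 ^ 120 ≤ 2 ^ (10 * K) := Nat.pow_le_pow_right (by norm_num) (by omega)
      have h4 : (2 : ℕ) < 2 ^ 120 := by norm_num
      omega
    exact ⟨Nat.prime_of_mem_primesLE h1, hne, h2, Nat.le_of_mem_primesLE h1⟩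
  refine ⟨S \ B, B, ?_, ?_, Finset.sdiff_disjoint, hBcard, ?_⟩
  · intro e he
    exact hSprop e (Finset.mem_sdiff.mp he).1
  · intro e he
    obtain ⟨h1, h2, _, h3⟩ := hSprop e (hBS he)
    exact ⟨h1, h2, h3⟩
  · rw [Finset.card_sdiff_of_subset hBS, hBcard]
    omega

theorem egyptian_refined (K : ℕ) (hK : 20 ≤ K) (a b : ℕ) (ha : 1 ≤ a) (hab : a < b)
    (hb : b ≤ 2 ^ (2 ^ K)) :
    ∃ S : Finset ℕ, (∀ n ∈ S, 2 ≤ n) ∧ #S ≤ (2 * K + 8) + 2 * hstar K ∧
      ∑ n ∈ S, (1 : ℚ) / n = (a : ℚ) / b := by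
  obtain ⟨A, B, hA, hB, hdisj, hcardB, hcardA⟩ := exists_pool K (by omega)
  obtain ⟨X, hX, hrep⟩ := final_rb K hK A B hA hB hdisj hcardB hcardA
  set Q := ∏ e ∈ B, e with hQ
  have hQpos : 0 < Q := Finset.prod_pos fun e he => (hB e he).1.pos
  have hQle : Q ≤ 2 ^ (20 * K * 2 ^ K) := by
    calc Q ≤ (2 ^ (20 * K)) ^ #B := Finset.prod_le_pow_card _ _ _ (fun e he => (hB e he).2.2)
      _ = 2 ^ (20 * K * 2 ^ K) := by rw [hcardB, ← pow_mul]
  set ρ := 40 * K * 2 ^ K + 1 with hρ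
  have hQ2 : Q ^ 2 < 2 ^ ρ := by
    calc Q ^ 2 ≤ (2 ^ (20 * K * 2 ^ K)) ^ 2 := Nat.pow_le_pow_left hQle 2
      _ = 2 ^ (40 * K * 2 ^ K) := by
        rw [← pow_mul]
        congr 1
        ring
      _ < 2 ^ ρ := Nat.pow_lt_pow_right (by norm_num) (by omega)
  obtain ⟨S, C, D, h1, h2, h3, h4, h5, h6, h7, h8⟩ := sylvester a b ρ ha hab (2 * K + 8)
  have hρle : ρ ≤ 2 ^ (2 * K + 8) / 2 := by
    have h9 : 2 ^ (2 * K + 8) = 2 * (2 ^ K * (2 ^ K * 128)) := by
      rw [show 2 * K + 8 = K + K + 7 + 1 by ring, pow_succ, pow_add, pow_add]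
      ring
    rw [h9]
    have h10 : 2 * (2 ^ K * (2 ^ K * 128)) / 2 = 2 ^ K * (2 ^ K * 128) :=
      Nat.mul_div_cancel_left _ (by norm_num)
    rw [h10, hρ]
    have hKu : K < 2 ^ K := Nat.lt_two_pow_self
    have h11 : 40 * K + 1 ≤ 2 ^ K * 128 := by omega
    have h12 : 1 ≤ 2 ^ K := Nat.one_le_two_pow
    calc 40 * K * 2 ^ K + 1 ≤ 40 * K * 2 ^ K + 2 ^ K := by omega
      _ = 2 ^ K * (40 * K + 1) := by ring
      _ ≤ 2 ^ K * (2 ^ K * 128) := Nat.mul_le_mul_left _ h11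
  have h8' : C = 0 ∨ 2 ^ ρ * C ≤ D := by
    rcases h8 with h | h | h
    · exact Or.inl h
    · exact Or.inr h
    · right
      have : 2 ^ ρ ≤ 2 ^ (2 ^ (2 * K + 8) / 2) := Nat.pow_le_pow_right (by norm_num) hρle
      have h9 := Nat.mul_le_mul_right C this
      omega
  by_cases hC0 : C = 0
  · refine ⟨S, fun n hn => (h1 n hn).1, ?_, ?_⟩
    · omega
    · rw [h7, hC0]
      simp
  · have hC : 2 ^ ρ * C ≤ D := by
      rcases h8' with h | h
      · exact absurd h hC0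
      · exact h
    have hC1 : 1 ≤ C := Nat.pos_of_ne_zero hC0
    have hDX : D ≤ X := by
      have e1 : (80 * K + 2) * 2 ^ K = 80 * (K * 2 ^ K) + 2 * 2 ^ K := by ring
      have e2 : ρ = 40 * (K * 2 ^ K) + 1 := by rw [hρ]; ring
      calc D ≤ b * 2 ^ (2 * ρ) := h5
        _ ≤ 2 ^ (2 ^ K) * 2 ^ (2 * ρ) := Nat.mul_le_mul_right _ hb
        _ = 2 ^ (2 ^ K + 2 * ρ) := by rw [pow_add]
        _ ≤ 2 ^ ((80 * K + 2) * 2 ^ K + 4) := Nat.pow_le_pow_right (by norm_num) (by omega)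
        _ ≤ X := hX
    have hX0 : 0 < X := by omega
    have hD0 : 0 < D := h2
    have hq : C * (X * Q ^ 2) / D < X := by
      rw [Nat.div_lt_iff_lt_mul hD0]
      have h9 : C * Q ^ 2 < D := by
        calc C * Q ^ 2 < C * 2 ^ ρ := Nat.mul_lt_mul_of_pos_left hQ2 hC1
          _ = 2 ^ ρ * C := mul_comm _ _
          _ ≤ D := hC
      calc C * (X * Q ^ 2) = X * (C * Q ^ 2) := by ring
        _ < X * D := Nat.mul_lt_mul_of_pos_left h9 hX0
    obtain ⟨T, hT1, hT2, hT3⟩ := egyptian_of_rb Q X (hstar K) C D hQpos hC1 h3 hDX hq hrep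
    have hdj : Disjoint S T := by
      rw [Finset.disjoint_left]
      intro x hxS hxT
      have h10 : (1 : ℚ) / x ≤ ∑ n ∈ T, (1 : ℚ) / n :=
        Finset.single_le_sum (f := fun n : ℕ => (1 : ℚ) / n) (fun i _ => by positivity) hxT
      rw [hT3] at h10
      have hx0 : 0 < x := by
        have := hT1 x hxT
        omega
      have hxQ : (0 : ℚ) < x := by exact_mod_cast hx0
      have hDQ : (0 : ℚ) < D := by exact_mod_cast hD0
      rw [div_le_div_iff₀ hxQ hDQ] at h10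
      have h11 : (D : ℚ) ≤ C * x := by linarith
      have h12 : D ≤ C * x := by exact_mod_cast h11
      have h13 := (h1 x hxS).2
      omega
    refine ⟨S ∪ T, ?_, ?_, ?_⟩
    · intro n hn
      rcases Finset.mem_union.mp hn with hn | hn
      · exact (h1 n hn).1
      · exact hT1 n hn
    · refine (Finset.card_union_le _ _).trans ?_
      omega
    · rw [Finset.sum_union hdj, h7, hT3]

end FinalTwo


section RealBound

lemma sumJ_le (K : ℕ) (hK : 8 ≤ K) :
    (sumJ K (K - 7) : ℝ) ≤ 160 * K * (1 + Real.log K) + K := by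
  obtain ⟨n, hn⟩ : ∃ n, n = K - 7 := ⟨_, rfl⟩
  rw [← hn]
  have hn1 : 1 ≤ n := by omega
  have hnK : n ≤ K := by omega
  have h1 : sumJ K n = ∑ j ∈ Finset.range n, (160 * K / (j + 1) + 1) := by
    unfold sumJ
    rw [← Finset.sum_range_reflect]
    apply Finset.sum_congr rfl
    intro j hj
    have hj' : j < n := Finset.mem_range.mp hj
    have : K - 7 - (n - 1 - j) = j + 1 := by omega
    rw [this]
  rw [h1]
  push_cast
  have h2 : ∀ j ∈ Finset.range n, (((160 * K / (j + 1) : ℕ) : ℝ) + 1) ≤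
      (160 * K : ℝ) * ((j : ℝ) + 1)⁻¹ + 1 := by
    intro j _
    have h3 : ((160 * K / (j + 1) : ℕ) : ℝ) ≤ ((160 * K : ℕ) : ℝ) / ((j + 1 : ℕ) : ℝ) :=
      Nat.cast_div_le
    push_cast at h3
    rw [div_eq_mul_inv] at h3
    linarith
  refine (Finset.sum_le_sum h2).trans ?_
  rw [Finset.sum_add_distrib, ← Finset.mul_sum]
  simp only [Finset.sum_const, Finset.card_range, nsmul_eq_mul, mul_one]
  have h4 : ∑ j ∈ Finset.range n, ((j : ℝ) + 1)⁻¹ = ((harmonic n : ℚ) : ℝ) := by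
    simp [harmonic]
  rw [h4]
  have h5 := harmonic_le_one_add_log n
  have h6 : Real.log n ≤ Real.log K := by
    apply Real.log_le_log (by exact_mod_cast hn1) (by exact_mod_cast hnK)
  have h7 : (n : ℝ) ≤ K := by exact_mod_cast hnK
  have hK0 : (0 : ℝ) ≤ 160 * K := by positivity
  have h8 := mul_le_mul_of_nonneg_left (h5.trans (by linarith : 1 + Real.log n ≤ 1 + Real.log K)) hK0
  linarith

lemma K_bound2 (b : ℕ) (hb : 2 ^ 32 ≤ b) :
    b ≤ 2 ^ (2 ^ (20 + Nat.clog 2 (Nat.clog 2 b))) ∧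
      ((20 + Nat.clog 2 (Nat.clog 2 b) : ℕ) : ℝ) ≤ 24 * Real.log (Real.log b) ∧
      1 ≤ Real.log (Real.log (Real.log b)) ∧ 1 ≤ Real.log (Real.log b) := by
  obtain ⟨h1, h2, h3⟩ := K_bound b (le_trans (by norm_num) hb)
  have hbR : ((2 : ℝ) ^ 32) ≤ b := by exact_mod_cast hb
  have hlog2l : (0.6931471803 : ℝ) < Real.log 2 := Real.log_two_gt_d9
  set L := Real.log b with hL
  have hL22 : 22 ≤ L := by
    have h4 : Real.log ((2 : ℝ) ^ 32) ≤ L := Real.log_le_log (by positivity) hbR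
    rw [Real.log_pow] at h4
    push_cast at h4
    linarith
  have hexp1 : Real.exp 1 < 2.7182818286 := Real.exp_one_lt_d9
  have hexp0 : 0 < Real.exp 1 := Real.exp_pos 1
  have hexp3 : Real.exp (Real.exp 1) ≤ 22 := by
    have h5 : Real.exp (Real.exp 1) ≤ Real.exp 3 := Real.exp_le_exp.mpr (by linarith)
    have h6 : Real.exp 3 = (Real.exp 1) ^ 3 := by
      rw [← Real.exp_nat_mul]
      norm_num
    have h7 : (Real.exp 1) ^ 3 ≤ (2.7182818286 : ℝ) ^ 3 :=
      pow_le_pow_left₀ hexp0.le hexp1.le 3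
    have h8 : (2.7182818286 : ℝ) ^ 3 ≤ 22 := by norm_num
    linarith
  have hLpos : 0 < L := by linarith
  have hxe : Real.exp 1 ≤ Real.log L := by
    rw [Real.le_log_iff_exp_le hLpos]
    linarith
  refine ⟨?_, ?_, ?_, h3⟩
  · refine h1.trans ?_
    exact Nat.pow_le_pow_right (by norm_num) (Nat.pow_le_pow_right (by norm_num) (by omega))
  · have h9 : ((20 + Nat.clog 2 (Nat.clog 2 b) : ℕ) : ℝ)
        = ((12 + Nat.clog 2 (Nat.clog 2 b) : ℕ) : ℝ) + 8 := by
      push_cast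
      ring
    rw [h9]
    linarith
  · have hx0 : 0 < Real.log L := lt_of_lt_of_le (Real.exp_pos 1) hxe
    rw [Real.le_log_iff_exp_le hx0]
    exact hxe

theorem egyptian_final (b : ℕ) (hb : 2 ^ 32 ≤ b) (a : ℕ) (ha : 1 ≤ a) (hab : a < b) :
    ∃ S : Finset ℕ, (∀ n ∈ S, 2 ≤ n) ∧
      (#S : ℝ) ≤ 10 ^ 6 * Real.log (Real.log b) * Real.log (Real.log (Real.log b)) ∧
      ∑ n ∈ S, (1 : ℚ) / n = (a : ℚ) / b := by
  obtain ⟨h1, h2, h3, h4⟩ := K_bound2 b hb
  obtain ⟨K, hK⟩ : ∃ K, K = 20 + Nat.clog 2 (Nat.clog 2 b) := ⟨_, rfl⟩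
  rw [← hK] at h1 h2
  have hK20 : 20 ≤ K := by omega
  obtain ⟨S, hS1, hS2, hS3⟩ := egyptian_refined K hK20 a b ha hab h1
  refine ⟨S, hS1, ?_, hS3⟩
  set x := Real.log (Real.log (b : ℝ)) with hx
  set y := Real.log x with hy
  have hKR : (1 : ℝ) ≤ K := by
    have : 1 ≤ K := by omega
    exact_mod_cast this
  have hsj := sumJ_le K (by omega)
  have hcard : (#S : ℝ) ≤ (2 * K + 8) +
      2 * (5120 * K + 4 + 4 * (sumJ K (K - 7) : ℝ) + 4 * (320 * K + 16)) := by
    have : #S ≤ (2 * K + 8) + 2 * (5120 * K + 4 + 4 * sumJ K (K - 7) + 4 * (320 * K + 16)) := hS2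
    exact_mod_cast this
  set lK := Real.log (K : ℝ) with hlK
  have hlK0 : 0 ≤ lK := Real.log_nonneg hKR
  have hlKle : lK ≤ 4.47 * y := by
    have h5 : lK ≤ Real.log (24 * x) :=
      Real.log_le_log (by linarith) h2
    have hx0 : 0 < x := by linarith
    rw [Real.log_mul (by norm_num) hx0.ne'] at h5
    have h6 : Real.log 24 ≤ Real.log 32 := Real.log_le_log (by norm_num) (by norm_num)
    have h7 : Real.log 32 = 5 * Real.log 2 := by
      rw [show (32 : ℝ) = 2 ^ 5 by norm_num, Real.log_pow]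
      norm_num
    have h8 : Real.log 2 < 0.6931471808 := Real.log_two_lt_d9
    linarith
  have hxy : 1 ≤ x * y := by nlinarith
  have hKx : (K : ℝ) ≤ x * y * 24 := by nlinarith
  have hKl : (K : ℝ) * lK ≤ (24 * x) * (4.47 * y) :=
    mul_le_mul h2 hlKle hlK0 (by nlinarith)
  have hfin : (#S : ℝ) ≤ 14090 * K + 144 + 1280 * (K * lK) := by
    nlinarith
  have hgoal : (10 : ℝ) ^ 6 * x * y = 1000000 * (x * y) := by ring
  rw [hgoal]
  nlinarith

end RealBound

end Vale.Agent.Lib.P012
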