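import Mathlib

namespace Vale.Agent.Lib.P012

open Finset
open scoped ComplexConjugate

section Fourier

set_option linter.unusedSectionVars false

variable {E : ℕ} [NeZero E]

/-- The standard additive character of `ZMod E`. -/
noncomputable abbrev chi : AddChar (ZMod E) ℂ := ZMod.stdAddChar

lemma norm_chi (x : ZMod E) : ‖(chi x : ℂ)‖ = 1 := by
  simp [chi, ZMod.stdAddChar_apply, Circle.norm_coe]

lemma sum_chi_mul (x : ZMod E) :
    ∑ y : ZMod E, (chi (y * x) : ℂ) = if x = 0 then (E : ℂ) else 0 := by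
  have h := AddChar.sum_mulShift x (ZMod.isPrimitive_stdAddChar E)
  rw [h, ZMod.card]
  split_ifs <;> simp

/-- The bilinear exponential sum over `D`. -/
noncomputable def bil (D : Finset ℕ) (t : ZMod E) : ℂ :=
  ∑ a ∈ D, ∑ b ∈ D, chi (t * (a : ZMod E) * (b : ZMod E))

/-- Kernel size of multiplication by `t`. -/
noncomputable def ker_size (t : ZMod E) : ℕ :=
  #{y : ZMod E | t * y = 0}

/-- Collision count of `D` with respect to `t`. -/
noncomputable def coll (D : Finset ℕ) (t : ZMod E) : ℕ :=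
  #{p ∈ D ×ˢ D | t * ((p.1 : ZMod E) - (p.2 : ZMod E)) = 0}

lemma ker_size_pos (t : ZMod E) : 0 < ker_size t := by
  unfold ker_size
  apply Finset.card_pos.mpr
  exact ⟨0, by simp⟩

lemma card_fiber (t b : ZMod E) : #{y : ZMod E | t * y = t * b} = ker_size t := by
  unfold ker_size
  apply Finset.card_bij (fun y _ => y - b)
  · intro y hy
    simp only [mem_filter, mem_univ, true_and] at hy ⊢
    rw [mul_sub, hy, sub_self]
  · intro y _ y' _ h
    exact sub_left_inj.mp h
  · intro y hy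
    simp only [mem_filter, mem_univ, true_and] at hy
    refine ⟨y + b, ?_, by ring⟩
    simp only [mem_filter, mem_univ, true_and]
    rw [mul_add, hy, zero_add]

lemma ker_size_mul_addOrderOf (t : ZMod E) : ker_size t * addOrderOf t = E := by
  let f : ZMod E →+ ZMod E := AddMonoidHom.mulLeft t
  have h1 := AddSubgroup.card_mul_index f.ker
  rw [AddSubgroup.index_ker] at h1
  have h2 : Nat.card f.ker = ker_size t := by
    unfold ker_size
    rw [Nat.card_eq_fintype_card, Fintype.card_subtype]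
    congr 1
    ext x
    simp [f]
  have h3 : f.range = AddSubgroup.zmultiples t := by
    ext x
    simp only [AddMonoidHom.mem_range, AddSubgroup.mem_zmultiples_iff]
    constructor
    · rintro ⟨y, rfl⟩
      refine ⟨(y.val : ℤ), ?_⟩
      simp [f, mul_comm]
    · rintro ⟨k, rfl⟩
      refine ⟨(k : ZMod E), ?_⟩
      simp [f, mul_comm]
  rw [h2, h3, Nat.card_zmultiples, Nat.card_zmod] at h1
  exact h1

/-- The key second moment identity. -/
lemma sum_norm_sq (D : Finset ℕ) (t : ZMod E) :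
    ∑ y : ZMod E, ‖∑ a ∈ D, (chi ((a : ZMod E) * (t * y)) : ℂ)‖ ^ 2 = E * coll D t := by
  have key : ((∑ y : ZMod E, ‖∑ a ∈ D, (chi ((a : ZMod E) * (t * y)) : ℂ)‖ ^ 2 : ℝ) : ℂ)
      = ((E * coll D t : ℝ) : ℂ) := by
    push_cast
    have h1 : ∀ y : ZMod E, ((‖∑ a ∈ D, (chi ((a : ZMod E) * (t * y)) : ℂ)‖ : ℂ)) ^ 2
        = ∑ p ∈ D ×ˢ D, (chi (y * (((p.1 : ZMod E) - (p.2 : ZMod E)) * t)) : ℂ) := by
      intro y
      rw [← Complex.mul_conj', map_sum, Finset.sum_mul_sum, Finset.sum_product]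
      refine Finset.sum_congr rfl fun a _ => Finset.sum_congr rfl fun b _ => ?_
      rw [← AddChar.map_neg_eq_conj, ← AddChar.map_add_eq_mul]
      congr 1
      ring
    simp_rw [h1]
    rw [Finset.sum_comm]
    simp_rw [sum_chi_mul]
    unfold coll
    rw [Finset.sum_ite, Finset.sum_const_zero, add_zero, Finset.sum_const, nsmul_eq_mul, mul_comm]
    congr 2
    refine congrArg _ (Finset.filter_congr fun p _ => ?_)
    rw [mul_comm]
  exact_mod_cast key

lemma sum_beta_sq (D : Finset ℕ) (t : ZMod E) :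
    ∑ y : ZMod E, ((#(D.filter (fun b : ℕ => t * y = t * (b : ZMod E))) : ℕ) : ℝ) ^ 2
      = ker_size t * coll D t := by
  have h1 : ∀ y : ZMod E, ((#(D.filter (fun b : ℕ => t * y = t * (b : ZMod E))) : ℕ) : ℝ) ^ 2
      = ∑ p ∈ D ×ˢ D, if (t * y = t * (p.1 : ZMod E) ∧ t * y = t * (p.2 : ZMod E))
          then (1 : ℝ) else 0 := by
    intro y
    rw [Finset.sum_product, sq]
    simp only [Finset.card_filter, Nat.cast_sum, Finset.sum_mul_sum]
    refine Finset.sum_congr rfl fun a _ => Finset.sum_congr rfl fun b _ => ?_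
    by_cases h1 : t * y = t * (a : ZMod E) <;> by_cases h2 : t * y = t * (b : ZMod E) <;> simp [h1, h2]
  simp_rw [h1]
  rw [Finset.sum_comm]
  have h2 : ∀ p ∈ D ×ˢ D, (∑ y : ZMod E, if (t * y = t * (p.1 : ZMod E) ∧ t * y = t * (p.2 : ZMod E))
          then (1 : ℝ) else 0) =
        if t * ((p.1 : ZMod E) - (p.2 : ZMod E)) = 0 then (ker_size t : ℝ) else 0 := by
    intro p _
    by_cases h : t * ((p.1 : ZMod E) - (p.2 : ZMod E)) = 0
    · have h' : t * (p.1 : ZMod E) = t * (p.2 : ZMod E) := by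
        rw [mul_sub, sub_eq_zero] at h; exact h
      rw [if_pos h, ← card_fiber t (p.1 : ZMod E), Finset.card_filter, Nat.cast_sum]
      refine Finset.sum_congr rfl fun y _ => ?_
      by_cases hy : t * y = t * (p.1 : ZMod E)
      · simp [hy, h']
      · simp [hy]
    · rw [if_neg h]
      apply Finset.sum_eq_zero
      intro y _
      rw [if_neg]
      rintro ⟨h1, h2⟩
      apply h
      rw [mul_sub, ← h1, ← h2, sub_self]
  rw [Finset.sum_congr rfl h2, Finset.sum_ite, Finset.sum_const_zero, add_zero, Finset.sum_const,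
    nsmul_eq_mul, mul_comm]
  rfl

/-- Cauchy-Schwarz bound with the kernel factor. -/
lemma ker_mul_norm_sq_le (D : Finset ℕ) (t : ZMod E) :
    (ker_size t : ℝ) * ‖bil D t‖ ^ 2 ≤ E * (coll D t : ℝ) ^ 2 := by
  set g : ℕ := ker_size t with hg
  set F : ZMod E → ℂ := fun z => ∑ a ∈ D, (chi ((a : ZMod E) * z) : ℂ) with hF
  have h1 : bil D t = ∑ b ∈ D, F (t * (b : ZMod E)) := by
    unfold bil
    refine Finset.sum_comm.trans ?_
    refine Finset.sum_congr rfl fun b _ => Finset.sum_congr rfl fun a _ => ?_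
    congr 1
    ring
  have h2 : ∀ b : ℕ, (g : ℂ) * F (t * (b : ZMod E)) =
      ∑ y : ZMod E, if t * y = t * (b : ZMod E) then F (t * y) else 0 := by
    intro b
    rw [← Finset.sum_filter]
    have : ∀ y ∈ ({y : ZMod E | t * y = t * (b : ZMod E)} : Finset (ZMod E)),
        F (t * y) = F (t * (b : ZMod E)) := by
      intro y hy
      simp only [mem_filter, mem_univ, true_and] at hy
      rw [hy]
    rw [Finset.sum_congr rfl this, Finset.sum_const, card_fiber, nsmul_eq_mul]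
  have h3 : (g : ℂ) * bil D t =
      ∑ y : ZMod E, ((#(D.filter (fun b : ℕ => t * y = t * (b : ZMod E))) : ℕ) : ℂ) * F (t * y) := by
    rw [h1, Finset.mul_sum, Finset.sum_congr rfl (fun b _ => h2 b), Finset.sum_comm]
    refine Finset.sum_congr rfl fun y _ => ?_
    rw [← Finset.sum_filter, Finset.sum_const, nsmul_eq_mul]
  have h4 : (g : ℝ) * ‖bil D t‖ ≤
      ∑ y : ZMod E, ((#(D.filter (fun b : ℕ => t * y = t * (b : ZMod E))) : ℕ) : ℝ) * ‖F (t * y)‖ := by
    have := congrArg norm h3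
    rw [norm_mul, Complex.norm_natCast] at this
    rw [this]
    refine (norm_sum_le _ _).trans (le_of_eq ?_)
    refine Finset.sum_congr rfl fun y _ => ?_
    rw [norm_mul, Complex.norm_natCast]
  have h5 := Finset.sum_mul_sq_le_sq_mul_sq (Finset.univ : Finset (ZMod E))
    (fun y => ((#(D.filter (fun b : ℕ => t * y = t * (b : ZMod E))) : ℕ) : ℝ)) (fun y => ‖F (t * y)‖)
  rw [sum_beta_sq] at h5
  have h6 : ∑ y : ZMod E, ‖F (t * y)‖ ^ 2 = E * coll D t := sum_norm_sq D t
  rw [h6] at h5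
  have h7 : ((g : ℝ) * ‖bil D t‖) ^ 2 ≤ (g : ℝ) * (coll D t) * (E * coll D t) := by
    refine le_trans ?_ h5
    apply pow_le_pow_left₀ (by positivity) h4
  have hgpos : (0 : ℝ) < g := by exact_mod_cast ker_size_pos t
  have h8 : (g : ℝ) * ((g : ℝ) * ‖bil D t‖ ^ 2) ≤ (g : ℝ) * (E * (coll D t : ℝ) ^ 2) := by
    nlinarith [h7]
  exact le_of_mul_le_mul_left h8 hgpos

/-- The collision count expressed with the additive order. -/
noncomputable def coll_ord (D : Finset ℕ) (d : ℕ) : ℕ :=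
  #{p ∈ D ×ˢ D | (d : ℤ) ∣ (p.1 : ℤ) - (p.2 : ℤ)}

lemma coll_eq_coll_ord (D : Finset ℕ) (t : ZMod E) : coll D t = coll_ord D (addOrderOf t) := by
  unfold coll coll_ord
  congr 1
  refine Finset.filter_congr fun p _ => ?_
  rw [addOrderOf_dvd_iff_zsmul_eq_zero, zsmul_eq_mul, mul_comm]
  push_cast
  rfl

lemma norm_bil_sq_le (D : Finset ℕ) (t : ZMod E) :
    ‖bil D t‖ ^ 2 ≤ addOrderOf t * (coll_ord D (addOrderOf t) : ℝ) ^ 2 := by
  have h := ker_mul_norm_sq_le D t
  have hg := ker_size_mul_addOrderOf t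
  have hgpos : (0 : ℝ) < ker_size t := by exact_mod_cast ker_size_pos t
  rw [← coll_eq_coll_ord]
  have h2 : (E : ℝ) = ker_size t * addOrderOf t := by exact_mod_cast hg.symm
  rw [h2, mul_assoc] at h
  exact le_of_mul_le_mul_left h hgpos

lemma addOrderOf_mul_unit (t u : ZMod E) (hu : IsUnit u) : addOrderOf (t * u) = addOrderOf t := by
  have hinj : Function.Injective (AddMonoidHom.mulRight u) := by
    intro x y hxy
    exact hu.mul_right_cancel hxy
  exact addOrderOf_injective (AddMonoidHom.mulRight u) hinj t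

/-- The pointwise bound for the bilinear sums. -/
noncomputable def bnd (D : Finset ℕ) (t : ZMod E) : ℝ :=
  addOrderOf t * (coll_ord D (addOrderOf t) : ℝ) ^ 2

lemma bnd_nonneg (D : Finset ℕ) (t : ZMod E) : 0 ≤ bnd D t := by
  unfold bnd; positivity

lemma norm_bil_mul_unit_sq_le (D : Finset ℕ) (t u : ZMod E) (hu : IsUnit u) :
    ‖bil D (t * u)‖ ^ 2 ≤ bnd D t := by
  have h := norm_bil_sq_le D (t * u)
  rw [addOrderOf_mul_unit t u hu] at h
  exact h

lemma bil_eq_sum_pairs (D : Finset ℕ) (t : ZMod E) (u : ZMod E) :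
    bil D (t * u) = ∑ p ∈ D ×ˢ D, (chi (t * (u * ((p.1 : ZMod E) * (p.2 : ZMod E)))) : ℂ) := by
  unfold bil
  rw [Finset.sum_product]
  refine Finset.sum_congr rfl fun a _ => Finset.sum_congr rfl fun b _ => ?_
  congr 1
  ring

lemma bil_zero (D : Finset ℕ) : bil D (0 : ZMod E) = ((#D : ℂ)) ^ 2 := by
  unfold bil
  simp [sq]

lemma prod4_sum {α : Type*} (G : Finset α) (f g h k : α → ℂ) :
    (∑ p ∈ G, f p) * ((∑ p ∈ G, g p) * ((∑ p ∈ G, h p) * (∑ p ∈ G, k p)))
      = ∑ q ∈ G ×ˢ (G ×ˢ (G ×ˢ G)), f q.1 * (g q.2.1 * (h q.2.2.1 * k q.2.2.2)) := by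
  simp only [Finset.sum_product, Finset.sum_mul_sum]
  simp only [Finset.mul_sum]

/-- Fourier coverage: if the sum over nonzero frequencies of the squared bounds is smaller than
the main term then every residue is a sum of four dilated products. -/
theorem exists_rep4 (D : Finset ℕ) (u0 u1 u2 u3 : ZMod E) (h0 : IsUnit u0) (h1 : IsUnit u1)
    (h2 : IsUnit u2) (h3 : IsUnit u3)
    (hsum : ∑ t ∈ (Finset.univ.erase (0 : ZMod E)), (bnd D t) ^ 2 < (#D : ℝ) ^ 8) (c : ZMod E) :
    ∃ p0 ∈ D ×ˢ D, ∃ p1 ∈ D ×ˢ D, ∃ p2 ∈ D ×ˢ D, ∃ p3 ∈ D ×ˢ D,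
      u0 * ((p0.1 : ZMod E) * (p0.2 : ZMod E)) + u1 * ((p1.1 : ZMod E) * (p1.2 : ZMod E))
        + u2 * ((p2.1 : ZMod E) * (p2.2 : ZMod E)) + u3 * ((p3.1 : ZMod E) * (p3.2 : ZMod E)) = c := by
  by_contra hno
  push Not at hno
  set G := D ×ˢ D with hG
  set m : ℕ × ℕ → ZMod E := fun p => (p.1 : ZMod E) * (p.2 : ZMod E) with hm
  let T : ZMod E → ℂ := fun t =>
    chi (-(t * c)) * (bil D (t * u0) * (bil D (t * u1) * (bil D (t * u2) * bil D (t * u3))))
  -- the total sum vanishes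
  have hT : ∑ t : ZMod E, T t = 0 := by
    have h1' : ∀ t : ZMod E, T t = ∑ q ∈ G ×ˢ (G ×ˢ (G ×ˢ G)),
        (chi (t * (u0 * m q.1 + u1 * m q.2.1 + u2 * m q.2.2.1 + u3 * m q.2.2.2 - c)) : ℂ) := by
      intro t
      simp only [T]
      rw [bil_eq_sum_pairs, bil_eq_sum_pairs, bil_eq_sum_pairs, bil_eq_sum_pairs, prod4_sum,
        Finset.mul_sum]
      refine Finset.sum_congr rfl fun q _ => ?_
      simp only [← AddChar.map_add_eq_mul]
      congr 1
      simp only [hm]
      ring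
    simp_rw [h1']
    rw [Finset.sum_comm]
    apply Finset.sum_eq_zero
    intro q hq
    have hq' : u0 * m q.1 + u1 * m q.2.1 + u2 * m q.2.2.1 + u3 * m q.2.2.2 - c ≠ 0 := by
      rw [sub_ne_zero]
      simp only [Finset.mem_product] at hq
      exact hno q.1 hq.1 q.2.1 hq.2.1 q.2.2.1 hq.2.2.1 q.2.2.2 hq.2.2.2
    have := sum_chi_mul (u0 * m q.1 + u1 * m q.2.1 + u2 * m q.2.2.1 + u3 * m q.2.2.2 - c)
    rw [if_neg hq'] at this
    exact this
  -- split off the zero frequency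
  have hsplit : T 0 + ∑ t ∈ (Finset.univ.erase (0 : ZMod E)), T t = 0 := by
    rw [← hT, Finset.add_sum_erase _ _ (Finset.mem_univ _)]
  have hT0 : T 0 = ((#D : ℂ)) ^ 8 := by
    simp only [T, zero_mul, neg_zero, AddChar.map_zero_eq_one, one_mul, bil_zero]
    ring
  have hnormT : ∀ t : ZMod E, ‖T t‖ ≤ (bnd D t) ^ 2 := by
    intro t
    have hb0 := norm_bil_mul_unit_sq_le D t u0 h0
    have hb1 := norm_bil_mul_unit_sq_le D t u1 h1
    have hb2 := norm_bil_mul_unit_sq_le D t u2 h2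
    have hb3 := norm_bil_mul_unit_sq_le D t u3 h3
    simp only [T, norm_mul, norm_chi, one_mul]
    set x0 := ‖bil D (t * u0)‖
    set x1 := ‖bil D (t * u1)‖
    set x2 := ‖bil D (t * u2)‖
    set x3 := ‖bil D (t * u3)‖
    have hx0 : 0 ≤ x0 := norm_nonneg _
    have hx1 : 0 ≤ x1 := norm_nonneg _
    have hx2 : 0 ≤ x2 := norm_nonneg _
    have hx3 : 0 ≤ x3 := norm_nonneg _
    have hB := bnd_nonneg D t
    have h01 : x0 * x1 ≤ bnd D t := by nlinarith [sq_nonneg (x0 - x1)]
    have h23 : x2 * x3 ≤ bnd D t := by nlinarith [sq_nonneg (x2 - x3)]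
    calc x0 * (x1 * (x2 * x3)) = (x0 * x1) * (x2 * x3) := by ring
      _ ≤ bnd D t * bnd D t := mul_le_mul h01 h23 (by positivity) hB
      _ = (bnd D t) ^ 2 := by ring
  have hlast : (#D : ℝ) ^ 8 ≤ ∑ t ∈ (Finset.univ.erase (0 : ZMod E)), (bnd D t) ^ 2 := by
    have h4 : T 0 = -∑ t ∈ (Finset.univ.erase (0 : ZMod E)), T t := eq_neg_of_add_eq_zero_left hsplit
    have h5 : ‖T 0‖ = (#D : ℝ) ^ 8 := by
      rw [hT0]
      simp
    rw [← h5, h4, norm_neg]
    exact (norm_sum_le _ _).trans (Finset.sum_le_sum fun t _ => hnormT t)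
  exact absurd hsum (not_lt.mpr hlast)

end Fourier

end Vale.Agent.Lib.P012
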