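import Vale.Agent.Lib.P012.FullDigit

namespace Vale.Agent.Lib.P012

open Finset

section Chain

/-- The state of the construction: every number below `X` is `h`-good for `X * W`. -/
def St (W X h : ℕ) : Prop := ∀ n < X, U h ((n : ℚ) / ((X * W : ℕ) : ℚ))

lemma St_base (W k : ℕ) (hW : 0 < W) : St W (2 ^ k) k := by
  intro n hn
  obtain ⟨T, hT, hs⟩ := binary k n hn
  have hN : 0 < 2 ^ k * W := by positivity
  have h1 := U_of_sum_dvd T (fun i => 2 ^ i) (2 ^ k * W) 1 hN one_pos (by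
    intro i hi
    refine ⟨by positivity, ?_⟩
    have : i ≤ k := (Finset.mem_range.mp (hT hi)).le
    exact (pow_dvd_pow 2 this).mul_right _)
  rw [hs, one_mul] at h1
  refine h1.mono ?_
  simpa using Finset.card_le_card hT

lemma St_step (W X E h t : ℕ) (hW : 0 < W) (hX : 0 < X) (hE : 1 < E)
    (digit : ∀ c : ℕ, ∃ d : ℕ, d ≤ X ∧ (d : ZMod E) = (c : ZMod E) ∧
      U t ((d : ℚ) / (W : ℚ)))
    (hS : St W X h) : St W (X * E) (h + t) := by
  intro n hn
  have hE0 : 0 < E := by omega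
  have hWQ : (W : ℚ) ≠ 0 := by exact_mod_cast hW.ne'
  have hXQ : (X : ℚ) ≠ 0 := by exact_mod_cast hX.ne'
  have hEQ : (E : ℚ) ≠ 0 := by exact_mod_cast hE0.ne'
  by_cases hnX : n < X
  · have h1 := (hS n hnX).div_nat hE0
    refine (U.mono ?_ (Nat.le_add_right h t))
    convert h1 using 1
    push_cast
    field_simp
  · push Not at hnX
    obtain ⟨d, hd1, hd2, hd3⟩ := digit n
    have hdn : d ≤ n := hd1.trans hnX
    have hdvd : E ∣ n - d := by
      rw [← ZMod.natCast_eq_zero_iff, Nat.cast_sub hdn, hd2, sub_self]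
    obtain ⟨n', hn'⟩ := hdvd
    have hn'lt : n' < X := by
      have h2 : E * n' < X * E := by
        rw [← hn']
        omega
      rw [mul_comm] at h2
      exact lt_of_mul_lt_mul_right h2 (Nat.zero_le _)
    have h3 := hS n' hn'lt
    have h4 := hd3.div_nat (Nat.mul_pos hX hE0)
    have h5 := h3.add h4
    convert h5 using 1
    have h6 : (n : ℚ) = d + E * n' := by
      have : n = d + E * n' := by omega
      exact_mod_cast this
    rw [h6]
    push_cast
    field_simp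
    ring

lemma St_iter (W X E h a : ℕ) (hW : 0 < W) (hE : 1 < E) (hX : 2 ^ a ≤ X)
    (digit : ∀ c : ℕ, ∃ d : ℕ, d ≤ 2 ^ a ∧ (d : ZMod E) = (c : ZMod E) ∧
      U 64 ((d : ℚ) / (W : ℚ)))
    (hS : St W X h) (L : ℕ) : St W (X * E ^ L) (h + 64 * L) := by
  induction L with
  | zero => simpa using hS
  | succ L ih =>
    have hXpos : 0 < X := lt_of_lt_of_le (by positivity) hX
    have hEpos : 0 < E := by omega
    have hXL : 2 ^ a ≤ X * E ^ L :=
      hX.trans (Nat.le_mul_of_pos_right _ (by positivity))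
    have := St_step W (X * E ^ L) E (h + 64 * L) 64 hW (by positivity) hE (fun c => by
      obtain ⟨d, h1, h2, h3⟩ := digit c
      exact ⟨d, h1.trans hXL, h2, h3⟩) ih
    have h5 : X * E ^ (L + 1) = X * E ^ L * E := by ring
    have h6 : h + 64 * (L + 1) = h + 64 * L + 64 := by ring
    rw [h5, h6]
    exact this

/-- The modulus used at top level `K`. -/
noncomputable def topW (K : ℕ) : ℕ := 512 * (poolQ (25 * 2 ^ K)) ^ 4

lemma topW_pos (K : ℕ) : 0 < topW K := by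
  unfold topW
  have := poolQ_pos (25 * 2 ^ K)
  positivity

/-- The growth phase: from level `12` to level `j`. -/
theorem chain_up (K j : ℕ) (hj : 12 ≤ j) (hjK : j ≤ K) :
    ∃ X : ℕ, 2 ^ (50 * 2 ^ j + 4) ≤ X ∧ St (topW K) X ((50 * 2 ^ 12 + 4) + 192 * (j - 12)) := by
  induction j, hj using Nat.le_induction with
  | base =>
    refine ⟨2 ^ (50 * 2 ^ 12 + 4), le_rfl, ?_⟩
    rw [Nat.sub_self, Nat.mul_zero, Nat.add_zero]
    exact St_base (topW K) (50 * 2 ^ 12 + 4) (topW_pos K)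
  | succ j hj ih =>
    obtain ⟨X, hX, hS⟩ := ih (by omega)
    obtain ⟨E, hEp, hEge, hdig⟩ := digit_level j K hj (by omega)
    have hS3 := St_iter (topW K) X E _ (50 * 2 ^ j + 4) (topW_pos K) hEp.one_lt hX hdig hS 3
    refine ⟨X * E ^ 3, ?_, ?_⟩
    · have h1 : (2 ^ (17 * 2 ^ j)) ^ 3 ≤ E ^ 3 := Nat.pow_le_pow_left hEge 3
      calc 2 ^ (50 * 2 ^ (j + 1) + 4) ≤ 2 ^ ((50 * 2 ^ j + 4) + 17 * 2 ^ j * 3) := by
            apply Nat.pow_le_pow_right (by norm_num)
            have : 2 ^ (j + 1) = 2 * 2 ^ j := by rw [pow_succ]; ring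
            rw [this]
            have : 0 < 2 ^ j := by positivity
            omega
        _ = 2 ^ (50 * 2 ^ j + 4) * (2 ^ (17 * 2 ^ j)) ^ 3 := by
            rw [pow_add, pow_mul (2 : ℕ) (17 * 2 ^ j) 3]
        _ ≤ X * E ^ 3 := Nat.mul_le_mul hX h1
    · have h2 : (50 * 2 ^ 12 + 4) + 192 * (j - 12) + 64 * 3 =
          (50 * 2 ^ 12 + 4) + 192 * (j + 1 - 12) := by omega
      rw [← h2]
      exact hS3

/-- The final phase at top level `K`. -/
theorem chain_top (K L : ℕ) (hK : 12 ≤ K) :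
    ∃ X : ℕ, 2 ^ (17 * 2 ^ K * L) ≤ X ∧
      St (topW K) X ((50 * 2 ^ 12 + 4) + 192 * (K - 12) + 64 * L) := by
  obtain ⟨X, hX, hS⟩ := chain_up K K hK le_rfl
  obtain ⟨E, hEp, hEge, hdig⟩ := digit_level K K hK le_rfl
  refine ⟨X * E ^ L, ?_, St_iter (topW K) X E _ _ (topW_pos K) hEp.one_lt hX hdig hS L⟩
  have h1 : (2 ^ (17 * 2 ^ K)) ^ L ≤ E ^ L := Nat.pow_le_pow_left hEge L
  have hXpos : 1 ≤ X := le_trans Nat.one_le_two_pow hX
  calc 2 ^ (17 * 2 ^ K * L) = (2 ^ (17 * 2 ^ K)) ^ L := pow_mul _ _ _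
    _ ≤ E ^ L := h1
    _ ≤ X * E ^ L := Nat.le_mul_of_pos_left _ hXpos

lemma topW_lt (K : ℕ) (hK : 12 ≤ K) : topW K < 2 ^ (2001 * K * 2 ^ K) := by
  set n : ℕ := 2 ^ K with hn
  have hKn : K < n := Nat.lt_two_pow_self
  have hpi : 25 * n < Nat.primeCounting (2 ^ (20 * K)) := by
    have h1 := pi_lower2 K hK
    have h2 : 25 * n < 2 ^ (18 * K + 2) := by
      calc 25 * n < 2 ^ 5 * 2 ^ K := by
            rw [← hn]
            have : 0 < n := by omega
            omega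
        _ = 2 ^ (K + 5) := by rw [pow_add]; ring
        _ ≤ 2 ^ (18 * K + 2) := Nat.pow_le_pow_right (by norm_num) (by omega)
    omega
  have hQle := poolQ_le (25 * n) (2 ^ (20 * K)) (20 * K) hpi le_rfl
  unfold topW
  have h3 : (poolQ (25 * n)) ^ 4 ≤ (2 ^ (20 * K * (25 * n))) ^ 4 := Nat.pow_le_pow_left hQle 4
  have h4 : (2 ^ (20 * K * (25 * n))) ^ 4 = 2 ^ (2000 * K * n) := by
    rw [← pow_mul]
    congr 1
    ring
  have hKnpos : 9 < K * n := by nlinarith
  calc 512 * (poolQ (25 * n)) ^ 4 ≤ 2 ^ 9 * 2 ^ (2000 * K * n) := by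
        rw [← h4]
        norm_num
        omega
    _ = 2 ^ (9 + 2000 * K * n) := by rw [pow_add]
    _ < 2 ^ (2001 * K * n) := by
        apply Nat.pow_lt_pow_right (by norm_num)
        have : 2001 * K * n = 2000 * K * n + K * n := by ring
        omega

/-- The main theorem with the explicit level `K`. -/
theorem egyptian_full (K : ℕ) (hK : 12 ≤ K) (a b : ℕ) (ha : 1 ≤ a) (hab : a < b)
    (hb : b ≤ 2 ^ (2 ^ K)) :
    ∃ S : Finset ℕ, (∀ n ∈ S, 2 ≤ n) ∧
      #S ≤ (2 * K + 12) + 2 * ((50 * 2 ^ 12 + 4) + 192 * (K - 12) + 64 * (236 * K)) ∧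
      ∑ n ∈ S, (1 : ℚ) / n = (a : ℚ) / b := by
  set n : ℕ := 2 ^ K with hn
  have hKn : K < n := Nat.lt_two_pow_self
  set ρ : ℕ := 2001 * K * n with hρ
  set h : ℕ := (50 * 2 ^ 12 + 4) + 192 * (K - 12) + 64 * (236 * K) with hh
  obtain ⟨X, hX, hS⟩ := chain_top K (236 * K) hK
  rw [← hn, ← hh] at *
  set W := topW K with hW
  have hWlt : W < 2 ^ ρ := topW_lt K hK
  have hWpos : 0 < W := topW_pos K
  obtain ⟨T, A, B, h1, h2, h3, h4, h5, h6, h7, h8⟩ := sylvester a b ρ ha hab (2 * K + 12)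
  have hρle : ρ ≤ 2 ^ (2 * K + 12) / 2 := by
    have h9 : 2 ^ (2 * K + 12) = 2 * (n * (n * 2048)) := by
      rw [hn, show 2 * K + 12 = K + K + 11 + 1 by ring, pow_succ, pow_add, pow_add]
      ring
    rw [h9, Nat.mul_div_cancel_left _ (by norm_num), hρ]
    have h10 : 2001 * K ≤ n * 2048 := by omega
    calc 2001 * K * n ≤ (n * 2048) * n := Nat.mul_le_mul_right _ h10
      _ = n * (n * 2048) := by ring
  have hAB : 2 ^ ρ * A ≤ B := by
    rcases h8 with h | h | h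
    · subst h
      simp
    · exact h
    · have h9 : 2 ^ ρ ≤ 2 ^ (2 ^ (2 * K + 12) / 2) := Nat.pow_le_pow_right (by norm_num) hρle
      have h10 := Nat.mul_le_mul_right A h9
      omega
  have hWA : A * W < B := by
    rcases Nat.eq_zero_or_pos A with h | h
    · subst h
      simpa using h2
    · calc A * W < A * 2 ^ ρ := Nat.mul_lt_mul_of_pos_left hWlt h
        _ = 2 ^ ρ * A := mul_comm _ _
        _ ≤ B := hAB
  have hXB : B ≤ X := by
    refine h5.trans ?_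
    calc b * 2 ^ (2 * ρ) ≤ 2 ^ n * 2 ^ (2 * ρ) := Nat.mul_le_mul_right _ hb
      _ = 2 ^ (n + 2 * ρ) := by rw [pow_add]
      _ ≤ 2 ^ (17 * n * (236 * K)) := by
        apply Nat.pow_le_pow_right (by norm_num)
        have h9 : 17 * n * (236 * K) = 4012 * (K * n) := by ring
        have h10 : 2 * ρ = 4002 * (K * n) := by rw [hρ]; ring
        have h11 : n ≤ K * n := Nat.le_mul_of_pos_left _ (by omega)
        omega
      _ ≤ X := hX
  have hXpos : 0 < X := lt_of_lt_of_le h2 hXB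
  -- the remainder is a sum of `2 h` unit fractions
  set N := X * W with hN
  have hNpos : 0 < N := by positivity
  set q := A * N / B with hq
  set r := A * N % B with hr
  have hqr : B * q + r = A * N := Nat.div_add_mod _ _
  have hrlt : r < B := Nat.mod_lt _ h2
  have hqlt : q < X := by
    rw [hq, Nat.div_lt_iff_lt_mul h2, hN]
    calc A * (X * W) = X * (A * W) := by ring
      _ < X * B := Nat.mul_lt_mul_of_pos_left hWA hXpos
  have hU1 : U h ((q : ℚ) / ((X * W : ℕ) : ℚ)) := hS q hqlt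
  have hU2 : U h ((r : ℚ) / ((X * W : ℕ) : ℚ)) := hS r (lt_of_lt_of_le hrlt hXB)
  have hU3 := hU1.add (hU2.div_nat h2)
  have hBQ : (B : ℚ) ≠ 0 := by exact_mod_cast h2.ne'
  have hNQ : (N : ℚ) ≠ 0 := by exact_mod_cast hNpos.ne'
  have hAB2 : (q : ℚ) / ((X * W : ℕ) : ℚ) + (r : ℚ) / ((X * W : ℕ) : ℚ) / (B : ℚ) = (A : ℚ) / B := by
    have h9 : (B : ℚ) * q + r = A * N := by exact_mod_cast hqr
    rw [← hN]
    field_simp
    linarith
  rw [hAB2] at hU3
  -- the greedy part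
  have hU4 : U #T (∑ x ∈ T, (1 : ℚ) / x) :=
    ⟨T.val, le_rfl, fun x hx => by
      have := (h1 x (Finset.mem_val.mp hx)).1
      omega, rfl⟩
  have hU5 := hU4.add hU3
  rw [← h7] at hU5
  have hlt1 : (a : ℚ) / b < 1 := by
    have hb0 : (0 : ℚ) < b := by exact_mod_cast (by omega : 0 < b)
    rw [div_lt_one hb0]
    exact_mod_cast hab
  obtain ⟨S, hS1, hS2, hS3⟩ := distinct_of_U hU5 hlt1
  refine ⟨S, hS2, ?_, hS3⟩
  omega

/-- **Erdős's conjecture**: `N(b) ≪ log log b`. -/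
theorem egyptian_loglog (b : ℕ) (hb : 16 ≤ b) (a : ℕ) (ha : 1 ≤ a) (hab : a < b) :
    ∃ S : Finset ℕ, (∀ n ∈ S, 2 ≤ n) ∧
      (#S : ℝ) ≤ 10 ^ 6 * Real.log (Real.log b) ∧
      ∑ n ∈ S, (1 : ℚ) / n = (a : ℚ) / b := by
  obtain ⟨h1, h2, h3⟩ := K_bound b hb
  obtain ⟨K, hK⟩ : ∃ K, K = 12 + Nat.clog 2 (Nat.clog 2 b) := ⟨_, rfl⟩
  rw [← hK] at h1 h2
  obtain ⟨S, hS1, hS2, hS3⟩ := egyptian_full K (by omega) a b ha hab h1
  refine ⟨S, hS1, ?_, hS3⟩
  have hS4 : #S ≤ 30594 * K + 409620 := by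
    refine hS2.trans ?_
    omega
  have hS5 : (#S : ℝ) ≤ 30594 * K + 409620 := by exact_mod_cast hS4
  nlinarith

end Chain

end Vale.Agent.Lib.P012
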