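import Vale.Agent.Lib.P012.FullPrimes

namespace Vale.Agent.Lib.P012

open Finset

section Digit

/-- `e` divides a sum of four positive divisors of `N`. -/
def Rep4 (e N : ℕ) : Prop := ∃ f : Fin 4 → ℕ, (∀ i, 0 < f i ∧ f i ∣ N) ∧ e ∣ ∑ i, f i

lemma U_mul_of_rep4 {e e' N : ℕ} (hN : 0 < N) (he : 0 < e) (he' : 0 < e')
    (h : Rep4 e N) (h' : Rep4 e' N) :
    U 16 (((e * e' : ℕ) : ℚ) / ((N * N : ℕ) : ℚ)) := by
  obtain ⟨f, hf, hd⟩ := h
  obtain ⟨f', hf', hd'⟩ := h'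
  have hs : ∑ p : Fin 4 × Fin 4, f p.1 * f' p.2 = (∑ i, f i) * ∑ i, f' i := by
    rw [Finset.sum_mul_sum, Fintype.sum_prod_type]
  have hpos1 : 0 < ∑ i, f i := by
    rw [Fin.sum_univ_four]
    have := (hf 0).1
    omega
  have hpos2 : 0 < ∑ i, f' i := by
    rw [Fin.sum_univ_four]
    have := (hf' 0).1
    omega
  have := U_of_dvd_sum (Finset.univ : Finset (Fin 4 × Fin 4)) (fun p => f p.1 * f' p.2) (N * N)
    (e * e') (Nat.mul_pos hN hN) (Nat.mul_pos he he')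
    (fun p _ => ⟨Nat.mul_pos (hf p.1).1 (hf' p.2).1, Nat.mul_dvd_mul (hf p.1).2 (hf' p.2).2⟩)
    (by rw [hs]; exact Nat.mul_dvd_mul hd hd')
    (by rw [hs]; exact Nat.mul_pos hpos1 hpos2)
  simpa using this

lemma U_digit (M x0 x1 x2 x3 : ℕ) (hM : 0 < M)
    (h0 : U 16 ((x0 : ℚ) / (M : ℚ))) (h1 : U 16 ((x1 : ℚ) / (M : ℚ)))
    (h2 : U 16 ((x2 : ℚ) / (M : ℚ))) (h3 : U 16 ((x3 : ℚ) / (M : ℚ))) :
    U 64 (((x0 + 2 * x1 + 4 * x2 + 8 * x3 : ℕ) : ℚ) / ((8 * M : ℕ) : ℚ)) := by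
  have e0 := h0.div_nat (m := 8) (by norm_num)
  have e1 := h1.div_nat (m := 4) (by norm_num)
  have e2 := h2.div_nat (m := 2) (by norm_num)
  have e3 := h3.div_nat (m := 1) (by norm_num)
  have := ((e0.add e1).add e2).add e3
  convert this using 1
  have hMQ : (M : ℚ) ≠ 0 := by exact_mod_cast hM.ne'
  push_cast
  field_simp
  ring

lemma rep4_of_mem_goodP (Q e y : ℕ) (hQ : 0 < Q) (he : e ∈ goodP Q.divisors y) (hy : 1024 ≤ y)
    (h1 : y ^ 5 ≤ #Q.divisors) (h64 : 64 ≤ #Q.divisors) : Rep4 e (8 * Q ^ 2) := by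
  obtain ⟨hp, h2, hle, hoff⟩ := goodP_spec he
  obtain ⟨a0, ha0, b0, hb0, a1, ha1, b1, hb1, a2, ha2, b2, hb2, a3, ha3, b3, hb3, heq⟩ :=
    single_coverage Q.divisors e y hp h2 hy hle (hle.trans h1) h64 hoff 0
  have hdvd : ∀ {a b : ℕ}, a ∈ Q.divisors → b ∈ Q.divisors → a * b ∣ Q ^ 2 := by
    intro a b ha hb
    rw [sq]
    exact Nat.mul_dvd_mul (Nat.dvd_of_mem_divisors ha) (Nat.dvd_of_mem_divisors hb)
  have hposm : ∀ {a b : ℕ}, a ∈ Q.divisors → b ∈ Q.divisors → 0 < a * b := by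
    intro a b ha hb
    exact Nat.mul_pos (Nat.pos_of_mem_divisors ha) (Nat.pos_of_mem_divisors hb)
  refine ⟨![a0 * b0, 2 * (a1 * b1), 4 * (a2 * b2), 8 * (a3 * b3)], ?_, ?_⟩
  · intro i
    fin_cases i
    · refine ⟨hposm ha0 hb0, ?_⟩
      exact (hdvd ha0 hb0).trans (Dvd.intro_left _ rfl)
    · refine ⟨Nat.mul_pos (by norm_num) (hposm ha1 hb1), ?_⟩
      have : 8 * Q ^ 2 = 2 * (4 * Q ^ 2) := by ring
      show 2 * (a1 * b1) ∣ 8 * Q ^ 2
      rw [this]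
      exact Nat.mul_dvd_mul_left 2 ((hdvd ha1 hb1).trans (Dvd.intro_left _ rfl))
    · refine ⟨Nat.mul_pos (by norm_num) (hposm ha2 hb2), ?_⟩
      have : 8 * Q ^ 2 = 4 * (2 * Q ^ 2) := by ring
      show 4 * (a2 * b2) ∣ 8 * Q ^ 2
      rw [this]
      exact Nat.mul_dvd_mul_left 4 ((hdvd ha2 hb2).trans (Dvd.intro_left _ rfl))
    · refine ⟨Nat.mul_pos (by norm_num) (hposm ha3 hb3), ?_⟩
      show 8 * (a3 * b3) ∣ 8 * Q ^ 2
      exact Nat.mul_dvd_mul_left 8 (hdvd ha3 hb3)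
  · rw [Fin.sum_univ_four]
    have h3 : e ∣ a0 * b0 + 2 * (a1 * b1) + 4 * (a2 * b2) + 8 * (a3 * b3) :=
      (ZMod.natCast_eq_zero_iff _ _).mp (by rw [heq]; simp)
    simpa [add_assoc] using h3

lemma twenty_five_le_four_pow (n : ℕ) (hn : 12 ≤ n) : 25 * n ≤ 4 ^ n := by
  induction n, hn using Nat.le_induction with
  | base => norm_num
  | succ n hn ih =>
    rw [pow_succ]
    omega

lemma five_hundred_sq_le (n : ℕ) (hn : 12 ≤ n) : 500 * n ^ 2 + 2 ≤ 4 ^ n := by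
  induction n, hn using Nat.le_induction with
  | base => norm_num
  | succ n hn ih =>
    have h : 4 ^ (n + 1) = 4 * 4 ^ n := pow_succ' 4 n
    rw [h]
    nlinarith

/-- The digit lemma: a prime modulus of size about `2 ^ (17 n)` all of whose residues have
representatives of size about `2 ^ (50 n)` which are sums of 64 unit fractions over `512 Q ^ 4`. -/
theorem digit_core (n W₁ Q : ℕ) (B : Finset ℕ) (hn : 12 ≤ n) (h4 : 4 ∣ n)
    (hB : ∀ e ∈ B, e.Prime ∧ e ≠ 2) (hQ : Q = ∏ e ∈ B, e) (hcard : #B = 25 * n)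
    (hW₁ : Q ≤ 2 ^ W₁) (hsmall : W₁ + 2 ≤ 4 ^ n) :
    ∃ E : ℕ, E.Prime ∧ 2 ^ (17 * n) ≤ E ∧ ∀ c : ℕ, ∃ d : ℕ, d ≤ 2 ^ (50 * n + 4) ∧
      (d : ZMod E) = (c : ZMod E) ∧ U 64 ((d : ℚ) / ((512 * Q ^ 4 : ℕ) : ℚ)) := by
  obtain ⟨u, hu⟩ := h4
  have hQpos : 0 < Q := by
    rw [hQ]
    exact Finset.prod_pos fun e he => (hB e he).1.pos
  -- first level
  set y₁ : ℕ := 2 ^ (5 * n) with hy₁
  have hy₁5 : y₁ ^ 5 = 2 ^ (25 * n) := by
    rw [hy₁, ← pow_mul]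
    congr 1
    ring
  have hy₁4 : y₁ ^ 4 = 2 ^ (20 * n) := by
    rw [hy₁, ← pow_mul]
    congr 1
    ring
  have hy₁1024 : 1024 ≤ y₁ := by
    calc 1024 = 2 ^ 10 := by norm_num
      _ ≤ 2 ^ (5 * n) := Nat.pow_le_pow_right (by norm_num) (by omega)
  set D₁ := Q.divisors with hD₁
  have hD₁card : #D₁ = 2 ^ (25 * n) := by
    rw [hD₁, hQ, card_divisors_prod B (fun e he => (hB e he).1), hcard]
  have hD₁64 : 64 ≤ #D₁ := by
    rw [hD₁card]
    calc 64 = 2 ^ 6 := by norm_num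
      _ ≤ 2 ^ (25 * n) := Nat.pow_le_pow_right (by norm_num) (by omega)
  have hW1 : ∀ p ∈ D₁.offDiag, cnt ((Nat.primesLE (y₁ ^ 5)).erase 2) p ≤ W₁ :=
    fun p hp => cnt_le_of_divisors Q W₁ hW₁ _
      (fun e he => Nat.prime_of_mem_primesLE (Finset.mem_of_mem_erase he)) p hp
  set P := goodP D₁ y₁ with hP
  have hcardP1 := card_goodP D₁ y₁ W₁ (by omega) hW1
  rw [← hP, hy₁5, hy₁4] at hcardP1
  set X : ℕ := 2 ^ (20 * n) with hX
  have hXpos : 0 < X := by positivity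
  have hPcard : X ≤ #P := by
    have h1 : 2 ^ (18 * (5 * u) + 2) ≤ Nat.primeCounting (2 ^ (20 * (5 * u))) :=
      pi_lower2 (5 * u) (by omega)
    have h2 : 20 * (5 * u) = 25 * n := by omega
    rw [h2] at h1
    have h3 : 2 ^ (22 * n) ≤ 2 ^ (18 * (5 * u) + 2) := Nat.pow_le_pow_right (by norm_num) (by omega)
    have h4 : 4 ^ n * X = 2 ^ (22 * n) := by
      rw [hX, show (4 : ℕ) = 2 ^ 2 by norm_num, ← pow_mul, ← pow_add]
      congr 1
      ring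
    have h5 : (W₁ + 2) * X ≤ 4 ^ n * X := Nat.mul_le_mul_right _ hsmall
    have h6 : (W₁ + 2) * X = W₁ * X + 2 * X := by ring
    omega
  have hPspec : ∀ e ∈ P, e.Prime ∧ e ≠ 2 ∧ e ≤ 2 ^ (25 * n) := by
    intro e he
    obtain ⟨h1, h2, h3, _⟩ := goodP_spec he
    rw [hy₁5] at h3
    exact ⟨h1, h2, h3⟩
  have hPrep : ∀ e ∈ P, Rep4 e (8 * Q ^ 2) := fun e he =>
    rep4_of_mem_goodP Q e y₁ hQpos he hy₁1024 (by rw [← hD₁, hD₁card, hy₁5]) hD₁64
  -- second level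
  set y₂ : ℕ := 2 ^ (4 * n) with hy₂
  have hy₂5 : y₂ ^ 5 = X := by
    rw [hy₂, hX, ← pow_mul]
    congr 1
    ring
  have hy₂4 : y₂ ^ 4 = 2 ^ (16 * n) := by
    rw [hy₂, ← pow_mul]
    congr 1
    ring
  have hy₂1024 : 1024 ≤ y₂ := by
    calc 1024 = 2 ^ 10 := by norm_num
      _ ≤ 2 ^ (4 * n) := Nat.pow_le_pow_right (by norm_num) (by omega)
  have hX64 : 64 ≤ X := by
    calc 64 = 2 ^ 6 := by norm_num
      _ ≤ 2 ^ (20 * n) := Nat.pow_le_pow_right (by norm_num) (by omega)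
  have hW2 : ∀ p ∈ P.offDiag, cnt ((Nat.primesLE (y₂ ^ 5)).erase 2) p ≤ 25 * n :=
    fun p hp => cnt_le_of_bound P (25 * n) (fun a ha => (hPspec a ha).2.2)
      (fun a ha => (hPspec a ha).1.pos) _
      (fun e he => Nat.prime_of_mem_primesLE (Finset.mem_of_mem_erase he)) p hp
  set G := goodP P y₂ with hG
  have hcardG1 := card_goodP P y₂ (25 * n) (by omega) hW2
  rw [← hG, hy₂5, hy₂4] at hcardG1
  have hGcard : 2 ^ (17 * n) < #G := by
    have h1 : 2 ^ (18 * n + 2) ≤ Nat.primeCounting (2 ^ (20 * n)) := pi_lower2 n hn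
    have h2 : 25 * n * 2 ^ (16 * n) ≤ 2 ^ (18 * n) := by
      calc 25 * n * 2 ^ (16 * n) ≤ 4 ^ n * 2 ^ (16 * n) :=
            Nat.mul_le_mul_right _ (twenty_five_le_four_pow n hn)
        _ = 2 ^ (18 * n) := by
          rw [show (4 : ℕ) = 2 ^ 2 by norm_num, ← pow_mul, ← pow_add]
          congr 1
          ring
    have h3 : 2 ^ (17 * n) ≤ 2 ^ (18 * n) := Nat.pow_le_pow_right (by norm_num) (by omega)
    have h4 : 2 ^ (18 * n + 2) = 4 * 2 ^ (18 * n) := by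
      rw [pow_add]
      ring
    have h5 : 2 ≤ 2 ^ (18 * n) := by
      calc 2 = 2 ^ 1 := by norm_num
        _ ≤ 2 ^ (18 * n) := Nat.pow_le_pow_right (by norm_num) (by omega)
    have hXX : Nat.primeCounting X = Nat.primeCounting (2 ^ (20 * n)) := by rw [hX]
    omega
  obtain ⟨E, hEG, hEge⟩ : ∃ E ∈ G, 2 ^ (17 * n) ≤ E := by
    by_contra hcon
    push Not at hcon
    have : #G ≤ #(Finset.range (2 ^ (17 * n))) := by
      apply Finset.card_le_card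
      intro e he
      exact Finset.mem_range.mpr (hcon e he)
    rw [Finset.card_range] at this
    omega
  obtain ⟨hEp, hE2, hEle, hEoff⟩ := goodP_spec hEG
  rw [hy₂5] at hEle
  refine ⟨E, hEp, hEge, ?_⟩
  intro c
  obtain ⟨a0, ha0, b0, hb0, a1, ha1, b1, hb1, a2, ha2, b2, hb2, a3, ha3, b3, hb3, heq⟩ :=
    single_coverage P E y₂ hEp hE2 hy₂1024 (by rw [hy₂5]; exact hEle) (hEle.trans hPcard)
      (hX64.trans hPcard) hEoff c
  refine ⟨_, ?_, heq, ?_⟩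
  · -- size of the digit
    have hsz : ∀ {a b : ℕ}, a ∈ P → b ∈ P → a * b ≤ 2 ^ (50 * n) := by
      intro a b ha hb
      calc a * b ≤ 2 ^ (25 * n) * 2 ^ (25 * n) :=
            Nat.mul_le_mul (hPspec a ha).2.2 (hPspec b hb).2.2
        _ = 2 ^ (50 * n) := by
          rw [← pow_add]
          congr 1
          ring
    have h0 := hsz ha0 hb0
    have h1 := hsz ha1 hb1
    have h2 := hsz ha2 hb2
    have h3 := hsz ha3 hb3
    have h16 : 2 ^ (50 * n + 4) = 16 * 2 ^ (50 * n) := by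
      rw [pow_add]
      ring
    omega
  · -- the unit fractions
    have hN : 0 < 8 * Q ^ 2 := by positivity
    have hprod : ∀ {a b : ℕ}, a ∈ P → b ∈ P →
        U 16 (((a * b : ℕ) : ℚ) / ((8 * Q ^ 2 * (8 * Q ^ 2) : ℕ) : ℚ)) := by
      intro a b ha hb
      exact U_mul_of_rep4 hN (hPspec a ha).1.pos (hPspec b hb).1.pos (hPrep a ha) (hPrep b hb)
    have := U_digit (8 * Q ^ 2 * (8 * Q ^ 2)) (a0 * b0) (a1 * b1) (a2 * b2) (a3 * b3)
      (by positivity) (hprod ha0 hb0) (hprod ha1 hb1) (hprod ha2 hb2) (hprod ha3 hb3)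
    have hM : 8 * (8 * Q ^ 2 * (8 * Q ^ 2)) = 512 * Q ^ 4 := by ring
    rw [hM] at this
    exact this

/-- The digit lemma at level `j`, for a top level `K ≥ j`. -/
theorem digit_level (j K : ℕ) (hj : 12 ≤ j) (hjK : j ≤ K) :
    ∃ E : ℕ, E.Prime ∧ 2 ^ (17 * 2 ^ j) ≤ E ∧ ∀ c : ℕ, ∃ d : ℕ, d ≤ 2 ^ (50 * 2 ^ j + 4) ∧
      (d : ZMod E) = (c : ZMod E) ∧ U 64 ((d : ℚ) / ((512 * (poolQ (25 * 2 ^ K)) ^ 4 : ℕ) : ℚ)) := by
  set n : ℕ := 2 ^ j with hn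
  have hjn : j < n := Nat.lt_two_pow_self
  have hn12 : 12 ≤ n := by omega
  have h4 : 4 ∣ n := by
    rw [hn]
    exact pow_dvd_pow 2 (by omega : 2 ≤ j)
  have hpi : 25 * n < Nat.primeCounting (2 ^ (20 * j)) := by
    have h1 := pi_lower2 j hj
    have h2 : 25 * n < 2 ^ (18 * j + 2) := by
      calc 25 * n < 2 ^ 5 * 2 ^ j := by
            rw [← hn]
            have : 0 < n := by omega
            omega
        _ = 2 ^ (j + 5) := by rw [pow_add]; ring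
        _ ≤ 2 ^ (18 * j + 2) := Nat.pow_le_pow_right (by norm_num) (by omega)
    omega
  have hQle := poolQ_le (25 * n) (2 ^ (20 * j)) (20 * j) hpi le_rfl
  obtain ⟨E, h1, h2, h3⟩ := digit_core n (20 * j * (25 * n)) (poolQ (25 * n)) (poolB (25 * n)) hn12 h4
    (fun e he => poolB_spec he) rfl (card_poolB _) hQle (by
      have := five_hundred_sq_le n hn12
      have h5 : 20 * j * (25 * n) ≤ 500 * n ^ 2 := by
        have h6 : j * n ≤ n * n := Nat.mul_le_mul_right _ hjn.le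
        nlinarith
      omega)
  refine ⟨E, h1, h2, ?_⟩
  intro c
  obtain ⟨d, h4, h5, h6⟩ := h3 c
  refine ⟨d, h4, h5, ?_⟩
  obtain ⟨m, hm⟩ := poolQ_dvd (show 25 * n ≤ 25 * 2 ^ K from
    Nat.mul_le_mul_left _ (Nat.pow_le_pow_right (by norm_num) hjK))
  have hmpos : 0 < m := by
    rcases Nat.eq_zero_or_pos m with h | h
    · subst h
      have := poolQ_pos (25 * 2 ^ K)
      simp [hm] at this
    · exact h
  have hQ0 := poolQ_pos (25 * n)
  have := h6.div_nat (m := m ^ 4) (by positivity)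
  convert this using 1
  rw [hm]
  have hmQ : (m : ℚ) ≠ 0 := by exact_mod_cast hmpos.ne'
  have hQQ : ((poolQ (25 * n) : ℕ) : ℚ) ≠ 0 := by exact_mod_cast hQ0.ne'
  push_cast
  field_simp

end Digit

end Vale.Agent.Lib.P012
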