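import Mathlib

namespace Vale.Agent.Lib.P012

open Finset

section UnitFractions

/-- `U k q`: the rational `q` is a sum of at most `k` unit fractions with positive integer
denominators, repetitions allowed. -/
def U (k : ℕ) (q : ℚ) : Prop :=
  ∃ M : Multiset ℕ, Multiset.card M ≤ k ∧ (∀ x ∈ M, 0 < x) ∧
    (M.map (fun x : ℕ => (1 : ℚ) / x)).sum = q

lemma U.mono {k l : ℕ} {q : ℚ} (h : U k q) (hkl : k ≤ l) : U l q := by
  obtain ⟨M, h1, h2, h3⟩ := h
  exact ⟨M, h1.trans hkl, h2, h3⟩

lemma U.zero (k : ℕ) : U k 0 := ⟨0, by simp, by simp, by simp⟩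

lemma U.add {k l : ℕ} {p q : ℚ} (hp : U k p) (hq : U l q) : U (k + l) (p + q) := by
  obtain ⟨M, h1, h2, h3⟩ := hp
  obtain ⟨M', h1', h2', h3'⟩ := hq
  refine ⟨M + M', ?_, ?_, ?_⟩
  · rw [Multiset.card_add]
    omega
  · intro x hx
    rcases Multiset.mem_add.mp hx with hx | hx
    · exact h2 x hx
    · exact h2' x hx
  · rw [Multiset.map_add, Multiset.sum_add, h3, h3']

lemma U.unit {n : ℕ} (hn : 0 < n) : U 1 ((1 : ℚ) / n) :=
  ⟨{n}, by simp, by simpa using hn, by simp⟩

lemma U.div_nat {k : ℕ} {q : ℚ} (h : U k q) {m : ℕ} (hm : 0 < m) : U k (q / m) := by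
  obtain ⟨M, h1, h2, h3⟩ := h
  refine ⟨M.map (fun x => x * m), by simpa using h1, ?_, ?_⟩
  · intro x hx
    obtain ⟨y, hy, rfl⟩ := Multiset.mem_map.mp hx
    exact Nat.mul_pos (h2 y hy) hm
  · rw [← h3, Multiset.map_map, div_eq_mul_inv, ← Multiset.sum_map_mul_right]
    congr 1
    apply Multiset.map_congr rfl
    intro x hx
    have hx0 : (x : ℚ) ≠ 0 := by exact_mod_cast (h2 x hx).ne'
    have hm0 : (m : ℚ) ≠ 0 := by exact_mod_cast hm.ne'
    simp only [Function.comp, Nat.cast_mul]
    field_simp

/-- Sum of few divisors of `N`, divided by `g * N`, is a sum of few unit fractions. -/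
lemma U_of_sum_dvd {ι : Type*} (s : Finset ι) (f : ι → ℕ) (N g : ℕ) (hN : 0 < N) (hg : 0 < g)
    (hf : ∀ i ∈ s, 0 < f i ∧ f i ∣ N) :
    U #s ((∑ i ∈ s, f i : ℕ) / ((g * N : ℕ) : ℚ)) := by
  classical
  induction s using Finset.induction_on with
  | empty => simpa using U.zero 0
  | insert i s hi ih =>
    rw [Finset.sum_insert hi, Finset.card_insert_of_notMem hi]
    have h1 := ih (fun j hj => hf j (Finset.mem_insert_of_mem hj))
    obtain ⟨h2, h3⟩ := hf i (Finset.mem_insert_self i s)
    obtain ⟨c, hc⟩ := h3
    have hc0 : 0 < c := by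
      rcases Nat.eq_zero_or_pos c with h | h
      · subst h
        omega
      · exact h
    have h4 : U 1 ((1 : ℚ) / ((g * c : ℕ) : ℚ)) := U.unit (Nat.mul_pos hg hc0)
    have h5 := h4.add h1
    rw [add_comm #s 1]
    convert h5 using 1
    have h6 : (f i : ℚ) ≠ 0 := by exact_mod_cast h2.ne'
    have h7 : (c : ℚ) ≠ 0 := by exact_mod_cast hc0.ne'
    have h8 : (g : ℚ) ≠ 0 := by exact_mod_cast hg.ne'
    rw [hc]
    push_cast
    field_simp

/-- The key lemma: a number dividing a sum of `t` divisors of `N` is `t`-good for `N`. -/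
lemma U_of_dvd_sum {ι : Type*} (s : Finset ι) (f : ι → ℕ) (N c : ℕ) (hN : 0 < N) (hc : 0 < c)
    (hf : ∀ i ∈ s, 0 < f i ∧ f i ∣ N) (hdvd : c ∣ ∑ i ∈ s, f i) (hpos : 0 < ∑ i ∈ s, f i) :
    U #s ((c : ℚ) / N) := by
  obtain ⟨g, hg⟩ := hdvd
  have hg0 : 0 < g := by
    rcases Nat.eq_zero_or_pos g with h | h
    · subst h
      omega
    · exact h
  have h1 := U_of_sum_dvd s f N g hN hg0 hf
  convert h1 using 1
  rw [hg]
  have h2 : (c : ℚ) ≠ 0 := by exact_mod_cast hc.ne'
  have h3 : (g : ℚ) ≠ 0 := by exact_mod_cast hg0.ne'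
  have h4 : (N : ℚ) ≠ 0 := by exact_mod_cast hN.ne'
  push_cast
  field_simp

/-- Elements of a multiset of unit fractions with sum below one are at least two. -/
lemma two_le_of_mem_of_sum_lt {M : Multiset ℕ} (hpos : ∀ x ∈ M, 0 < x)
    (hlt : (M.map (fun x : ℕ => (1 : ℚ) / x)).sum < 1) {x : ℕ} (hx : x ∈ M) : 2 ≤ x := by
  have h1 : (1 : ℚ) / x ≤ (M.map (fun x : ℕ => (1 : ℚ) / x)).sum := by
    apply Multiset.single_le_sum
    · intro y hy
      obtain ⟨z, _, rfl⟩ := Multiset.mem_map.mp hy
      positivity
    · exact Multiset.mem_map_of_mem _ hx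
  by_contra hcon
  have hx1 : x = 1 := by
    have := hpos x hx
    omega
  subst hx1
  norm_num at h1 hlt
  linarith

/-- The pairing lemma: repetitions among unit fractions are free. -/
theorem distinct_of_multiset : ∀ (k : ℕ) (M : Multiset ℕ), Multiset.card M ≤ k →
    (∀ x ∈ M, 0 < x) → (M.map (fun x : ℕ => (1 : ℚ) / x)).sum < 1 →
    ∃ S : Finset ℕ, #S ≤ k ∧ (∀ n ∈ S, 2 ≤ n) ∧
      ∑ n ∈ S, (1 : ℚ) / n = (M.map (fun x : ℕ => (1 : ℚ) / x)).sum := by
  intro k
  induction k with
  | zero =>
    intro M hM _ _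
    have : M = 0 := by simpa using hM
    subst this
    exact ⟨∅, by simp, by simp, by simp⟩
  | succ k ih =>
    -- inner induction on an element of the multiset
    have inner : ∀ (x : ℕ) (M : Multiset ℕ), x ∈ M → Multiset.card M ≤ k + 1 →
        (∀ x ∈ M, 0 < x) → (M.map (fun x : ℕ => (1 : ℚ) / x)).sum < 1 →
        ∃ S : Finset ℕ, #S ≤ k + 1 ∧ (∀ n ∈ S, 2 ≤ n) ∧
          ∑ n ∈ S, (1 : ℚ) / n = (M.map (fun x : ℕ => (1 : ℚ) / x)).sum := by
      intro x
      induction x using Nat.strong_induction_on with
      | _ x hx =>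
        intro M hxM hcard hpos hlt
        obtain ⟨M', rfl⟩ := Multiset.exists_cons_of_mem hxM
        have hx2 : 2 ≤ x := two_le_of_mem_of_sum_lt hpos hlt hxM
        rw [Multiset.map_cons, Multiset.sum_cons] at hlt ⊢
        have hx0 : (0 : ℚ) < (1 : ℚ) / x := by
          have : (0 : ℚ) < x := by exact_mod_cast (by omega : 0 < x)
          positivity
        have hM'pos : ∀ y ∈ M', 0 < y := fun y hy => hpos y (Multiset.mem_cons_of_mem hy)
        obtain ⟨S', hS1, hS2, hS3⟩ := ih M' (by simpa using hcard) hM'pos (by linarith)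
        by_cases hxS : x ∈ S'
        · -- the pair rule
          have hsum : ∑ n ∈ S', (1 : ℚ) / n = (1 : ℚ) / x + ∑ n ∈ S'.erase x, (1 : ℚ) / n :=
            (Finset.add_sum_erase _ _ hxS).symm
          have hcard' : #(S'.erase x) + 1 ≤ k := by
            rw [Finset.card_erase_of_mem hxS]
            have : 0 < #S' := Finset.card_pos.mpr ⟨x, hxS⟩
            omega
          set R : Multiset ℕ := (S'.erase x).val with hR
          have hRsum : (R.map (fun x : ℕ => (1 : ℚ) / x)).sum = ∑ n ∈ S'.erase x, (1 : ℚ) / n := rfl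
          have hRcard : Multiset.card R = #(S'.erase x) := rfl
          have hRpos : ∀ y ∈ R, 0 < y := by
            intro y hy
            have : y ∈ S' := Finset.mem_of_mem_erase (Finset.mem_val.mp hy)
            have := hS2 y this
            omega
          rcases Nat.even_or_odd' x with ⟨t, ht | ht⟩
          · -- even case
            have ht0 : 0 < t := by omega
            have htQ : (t : ℚ) ≠ 0 := by exact_mod_cast ht0.ne'
            have hval : (1 : ℚ) / t = 1 / x + 1 / x := by
              rw [ht]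
              push_cast
              field_simp
              norm_num
            have hnew : ((t ::ₘ R).map (fun x : ℕ => (1 : ℚ) / x)).sum =
                (1 : ℚ) / x + (1 / x + ∑ n ∈ S'.erase x, (1 : ℚ) / n) := by
              rw [Multiset.map_cons, Multiset.sum_cons, hRsum, hval]
              ring
            obtain ⟨S, h1, h2, h3⟩ := ih (t ::ₘ R) (by
                rw [Multiset.card_cons, hRcard]
                exact hcard') (by
                intro y hy
                rcases Multiset.mem_cons.mp hy with rfl | hy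
                · exact ht0
                · exact hRpos y hy) (by
                rw [hnew, ← hsum, hS3]
                exact hlt)
            refine ⟨S, by omega, h2, ?_⟩
            rw [h3, hnew, ← hsum, hS3]
          · -- odd case
            have ht1 : 0 < t := by omega
            have htQ : (t : ℚ) + 1 ≠ 0 := by positivity
            have htQ2 : (2 * (t : ℚ) + 1) ≠ 0 := by positivity
            have hval : (1 : ℚ) / ((t + 1 : ℕ) : ℚ) + 1 / ((x * (t + 1) : ℕ) : ℚ) = 1 / x + 1 / x := by
              rw [ht]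
              push_cast
              field_simp
              ring
            have hnew : (((t + 1) ::ₘ (x * (t + 1)) ::ₘ R).map (fun x : ℕ => (1 : ℚ) / x)).sum =
                (1 : ℚ) / x + (1 / x + ∑ n ∈ S'.erase x, (1 : ℚ) / n) := by
              rw [Multiset.map_cons, Multiset.sum_cons, Multiset.map_cons, Multiset.sum_cons, hRsum,
                ← add_assoc, hval]
              ring
            have hltn : t + 1 < x := by omega
            obtain ⟨S, h1, h2, h3⟩ := hx (t + 1) hltn ((t + 1) ::ₘ (x * (t + 1)) ::ₘ R)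
              (Multiset.mem_cons_self _ _) (by
                rw [Multiset.card_cons, Multiset.card_cons, hRcard]
                omega) (by
                intro y hy
                rcases Multiset.mem_cons.mp hy with rfl | hy
                · omega
                · rcases Multiset.mem_cons.mp hy with rfl | hy
                  · exact Nat.mul_pos (by omega) (by omega)
                  · exact hRpos y hy) (by
                rw [hnew, ← hsum, hS3]
                exact hlt)
            refine ⟨S, h1, h2, ?_⟩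
            rw [h3, hnew, ← hsum, hS3]
        · -- no collision
          refine ⟨insert x S', ?_, ?_, ?_⟩
          · rw [Finset.card_insert_of_notMem hxS]
            omega
          · intro n hn
            rcases Finset.mem_insert.mp hn with rfl | hn
            · exact hx2
            · exact hS2 n hn
          · rw [Finset.sum_insert hxS, hS3]
    intro M hM hpos hlt
    rcases Multiset.empty_or_exists_mem M with rfl | ⟨x, hx⟩
    · exact ⟨∅, by simp, by simp, by simp⟩
    · exact inner x M hx hM hpos hlt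

/-- The pairing lemma in terms of `U`. -/
theorem distinct_of_U {k : ℕ} {q : ℚ} (h : U k q) (hq : q < 1) :
    ∃ S : Finset ℕ, #S ≤ k ∧ (∀ n ∈ S, 2 ≤ n) ∧ ∑ n ∈ S, (1 : ℚ) / n = q := by
  obtain ⟨M, h1, h2, h3⟩ := h
  subst h3
  exact distinct_of_multiset k M h1 h2 hq

end UnitFractions

end Vale.Agent.Lib.P012
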