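import Vale.Agent.Lib.P012.Final2
import Vale.Agent.Lib.P012.FullUnit

namespace Vale.Agent.Lib.P012

open Finset

section Single

/-- Fourier coverage for a single odd prime modulus. -/
lemma single_coverage (D : Finset ℕ) (e y : ℕ) (he : e.Prime) (he2 : e ≠ 2) (hy : 1024 ≤ y)
    (hle : e ≤ y ^ 5) (h1 : e ≤ #D) (h64 : 64 ≤ #D)
    (hoff : offN D {e} * y ^ 4 ≤ 2 * #D ^ 2) (c : ℕ) :
    ∃ a0 ∈ D, ∃ b0 ∈ D, ∃ a1 ∈ D, ∃ b1 ∈ D, ∃ a2 ∈ D, ∃ b2 ∈ D, ∃ a3 ∈ D, ∃ b3 ∈ D,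
      ((a0 * b0 + 2 * (a1 * b1) + 4 * (a2 * b2) + 8 * (a3 * b3) : ℕ) : ZMod e) = (c : ZMod e) := by
  have : NeZero e := ⟨he.ne_zero⟩
  have hN : ∀ I ⊆ ({e} : Finset ℕ), (offN D I : ℝ) * ((y : ℝ) ^ 4) ^ #I ≤ 2 * (#D : ℝ) ^ 2 := by
    intro I hI
    rcases Finset.subset_singleton_iff.mp hI with rfl | rfl
    · have h2 : offN D ∅ ≤ #D ^ 2 := by
        unfold offN
        refine (Finset.card_filter_le _ _).trans ?_
        rw [Finset.offDiag_card, sq]
        exact Nat.sub_le _ _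
      have h3 : (offN D ∅ : ℝ) ≤ (#D : ℝ) ^ 2 := by exact_mod_cast h2
      have h4 : (0 : ℝ) ≤ (#D : ℝ) ^ 2 := by positivity
      simp only [Finset.card_empty, pow_zero, mul_one]
      linarith
    · simp only [Finset.card_singleton, pow_one]
      exact_mod_cast hoff
  have hsum := sum_bnd_lt (E := e) D {e} y (by omega) (by simpa using he) (by simp)
    (by simpa using hle) (by omega) h1 (by simpa using h64) (by simpa using (by omega : 1024 ≤ y)) hN
  have hcop : Nat.Coprime 2 e := (Nat.coprime_primes Nat.prime_two he).mpr (Ne.symm he2)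
  have hu2 : IsUnit ((2 : ℕ) : ZMod e) := (ZMod.isUnit_iff_coprime _ _).mpr hcop
  have hu4 : IsUnit ((4 : ℕ) : ZMod e) :=
    (ZMod.isUnit_iff_coprime _ _).mpr (by
      have : (4 : ℕ) = 2 ^ 2 := by norm_num
      rw [this]
      exact Nat.Coprime.pow_left 2 hcop)
  have hu8 : IsUnit ((8 : ℕ) : ZMod e) :=
    (ZMod.isUnit_iff_coprime _ _).mpr (by
      have : (8 : ℕ) = 2 ^ 3 := by norm_num
      rw [this]
      exact Nat.Coprime.pow_left 3 hcop)
  obtain ⟨p0, hp0, p1, hp1, p2, hp2, p3, hp3, heq⟩ :=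
    exists_rep4 (E := e) D 1 ((2 : ℕ) : ZMod e) ((4 : ℕ) : ZMod e)
      ((8 : ℕ) : ZMod e) isUnit_one hu2 hu4 hu8 hsum (c : ZMod e)
  rw [Finset.mem_product] at hp0 hp1 hp2 hp3
  refine ⟨p0.1, hp0.1, p0.2, hp0.2, p1.1, hp1.1, p1.2, hp1.2, p2.1, hp2.1, p2.2, hp2.2,
    p3.1, hp3.1, p3.2, hp3.2, ?_⟩
  rw [← heq]
  push_cast
  ring

/-- Double counting of the collisions over a set of moduli. -/
lemma sum_offN_le (D A : Finset ℕ) (W : ℕ) (hW : ∀ p ∈ D.offDiag, cnt A p ≤ W) :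
    ∑ e ∈ A, offN D {e} ≤ #D ^ 2 * W := by
  classical
  have h1 : ∀ e ∈ A, offN D {e} =
      ∑ p ∈ D.offDiag, if (e : ℤ) ∣ (p.1 : ℤ) - (p.2 : ℤ) then 1 else 0 := by
    intro e _
    unfold offN
    rw [Finset.card_filter]
    refine Finset.sum_congr rfl fun p _ => ?_
    simp
  rw [Finset.sum_congr rfl h1, Finset.sum_comm]
  have h2 : ∀ p ∈ D.offDiag,
      ∑ e ∈ A, (if (e : ℤ) ∣ (p.1 : ℤ) - (p.2 : ℤ) then 1 else 0) = cnt A p := by
    intro p _
    unfold cnt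
    rw [Finset.card_filter]
  rw [Finset.sum_congr rfl h2]
  calc ∑ p ∈ D.offDiag, cnt A p ≤ ∑ _p ∈ D.offDiag, W := Finset.sum_le_sum hW
    _ = #D.offDiag * W := by simp
    _ ≤ #D ^ 2 * W := by
      apply Nat.mul_le_mul_right
      rw [Finset.offDiag_card, sq]
      exact Nat.sub_le _ _

/-- Few moduli have many collisions. -/
lemma card_bad_le (D A : Finset ℕ) (W y : ℕ) (hD : 0 < #D)
    (hW : ∀ p ∈ D.offDiag, cnt A p ≤ W) :
    2 * #(A.filter (fun e => ¬ offN D {e} * y ^ 4 ≤ 2 * #D ^ 2)) ≤ W * y ^ 4 := by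
  classical
  set Bd := A.filter (fun e => ¬ offN D {e} * y ^ 4 ≤ 2 * #D ^ 2) with hBd
  have h1 : #Bd * (2 * #D ^ 2) ≤ ∑ e ∈ Bd, offN D {e} * y ^ 4 := by
    calc #Bd * (2 * #D ^ 2) = ∑ _e ∈ Bd, (2 * #D ^ 2) := by simp
      _ ≤ ∑ e ∈ Bd, offN D {e} * y ^ 4 := by
        refine Finset.sum_le_sum fun e he => ?_
        have := (Finset.mem_filter.mp he).2
        omega
  have h2 : ∑ e ∈ Bd, offN D {e} * y ^ 4 ≤ ∑ e ∈ A, offN D {e} * y ^ 4 :=
    Finset.sum_le_sum_of_subset (Finset.filter_subset _ _)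
  have h2' : ∑ e ∈ A, offN D {e} * y ^ 4 = (∑ e ∈ A, offN D {e}) * y ^ 4 :=
    (Finset.sum_mul _ _ _).symm
  have h3 : (∑ e ∈ A, offN D {e}) * y ^ 4 ≤ (#D ^ 2 * W) * y ^ 4 :=
    Nat.mul_le_mul_right _ (sum_offN_le D A W hW)
  have hpos : 0 < #D ^ 2 := by positivity
  have h4 : #D ^ 2 * (2 * #Bd) ≤ #D ^ 2 * (W * y ^ 4) := by
    calc #D ^ 2 * (2 * #Bd) = #Bd * (2 * #D ^ 2) := by ring
      _ ≤ (#D ^ 2 * W) * y ^ 4 := by omega
      _ = #D ^ 2 * (W * y ^ 4) := by ring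
  exact Nat.le_of_mul_le_mul_left h4 hpos

/-- The odd primes up to `y ^ 5` with few collisions on `D`. -/
noncomputable def goodP (D : Finset ℕ) (y : ℕ) : Finset ℕ :=
  ((Nat.primesLE (y ^ 5)).erase 2).filter (fun e => offN D {e} * y ^ 4 ≤ 2 * #D ^ 2)

lemma goodP_spec {D : Finset ℕ} {y e : ℕ} (he : e ∈ goodP D y) :
    e.Prime ∧ e ≠ 2 ∧ e ≤ y ^ 5 ∧ offN D {e} * y ^ 4 ≤ 2 * #D ^ 2 := by
  unfold goodP at he
  obtain ⟨h1, h2⟩ := Finset.mem_filter.mp he
  obtain ⟨h3, h4⟩ := Finset.mem_erase.mp h1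
  exact ⟨Nat.prime_of_mem_primesLE h4, h3, Nat.le_of_mem_primesLE h4, h2⟩

lemma card_goodP (D : Finset ℕ) (y W : ℕ) (hD : 0 < #D)
    (hW : ∀ p ∈ D.offDiag, cnt ((Nat.primesLE (y ^ 5)).erase 2) p ≤ W) :
    Nat.primeCounting (y ^ 5) ≤ #(goodP D y) + W * y ^ 4 + 1 := by
  classical
  set A := (Nat.primesLE (y ^ 5)).erase 2 with hA
  have h1 := Finset.card_filter_add_card_filter_not (s := A)
    (fun e => offN D {e} * y ^ 4 ≤ 2 * #D ^ 2)
  have h2 := card_bad_le D A W y hD hW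
  have h3 : Nat.primeCounting (y ^ 5) ≤ #A + 1 := by
    rw [← Nat.primesLE_card_eq_primeCounting]
    have := Finset.pred_card_le_card_erase (s := Nat.primesLE (y ^ 5)) (a := 2)
    rw [hA]
    omega
  have h4 : #(goodP D y) = #(A.filter (fun e => offN D {e} * y ^ 4 ≤ 2 * #D ^ 2)) := rfl
  omega

end Single

section Pool

/-- The odd primes in increasing order. -/
noncomputable def oddPr (i : ℕ) : ℕ := Nat.nth Nat.Prime (i + 1)

lemma oddPr_prime (i : ℕ) : (oddPr i).Prime := Nat.prime_nth_prime (i + 1)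

lemma oddPr_injective : Function.Injective oddPr := by
  intro i j h
  have := Nat.nth_injective Nat.infinite_setOfPred_prime h
  omega

lemma oddPr_ne_two (i : ℕ) : oddPr i ≠ 2 := by
  intro h
  have h2 : Nat.nth Nat.Prime (i + 1) = Nat.nth Nat.Prime 0 := by
    rw [Nat.nth_prime_zero_eq_two]
    exact h
  have := Nat.nth_injective Nat.infinite_setOfPred_prime h2
  omega

lemma oddPr_le (i z : ℕ) (h : i + 1 < Nat.primeCounting z) : oddPr i ≤ z := by
  have h1 : Nat.nth Nat.Prime (i + 1) < z + 1 := Nat.nth_lt_of_lt_count h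
  unfold oddPr
  omega

/-- The first `P` odd primes. -/
noncomputable def poolB (P : ℕ) : Finset ℕ := (Finset.range P).image oddPr

/-- The product of the first `P` odd primes. -/
noncomputable def poolQ (P : ℕ) : ℕ := ∏ e ∈ poolB P, e

lemma card_poolB (P : ℕ) : #(poolB P) = P := by
  unfold poolB
  rw [Finset.card_image_of_injective _ oddPr_injective, Finset.card_range]

lemma poolB_spec {P e : ℕ} (he : e ∈ poolB P) : e.Prime ∧ e ≠ 2 := by
  obtain ⟨i, _, rfl⟩ := Finset.mem_image.mp he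
  exact ⟨oddPr_prime i, oddPr_ne_two i⟩

lemma poolQ_pos (P : ℕ) : 0 < poolQ P :=
  Finset.prod_pos fun _ he => (poolB_spec he).1.pos

lemma poolQ_dvd {P P' : ℕ} (h : P ≤ P') : poolQ P ∣ poolQ P' := by
  unfold poolQ
  apply Finset.prod_dvd_prod_of_subset
  exact Finset.image_subset_image (Finset.range_mono h)

lemma poolQ_le (P z w : ℕ) (h : P < Nat.primeCounting z) (hz : z ≤ 2 ^ w) :
    poolQ P ≤ 2 ^ (w * P) := by
  unfold poolQ
  calc ∏ e ∈ poolB P, e ≤ (2 ^ w) ^ #(poolB P) := by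
        apply Finset.prod_le_pow_card
        intro e he
        obtain ⟨i, hi, rfl⟩ := Finset.mem_image.mp he
        have := Finset.mem_range.mp hi
        exact (oddPr_le i z (by omega)).trans hz
    _ = 2 ^ (w * P) := by rw [card_poolB, pow_mul]

end Pool

end Vale.Agent.Lib.P012
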