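import Vale.Agent.Lib.P012.Fourier

namespace Vale.Agent.Lib.P012

open Finset

section Greedy

/-- Number of elements of `P` dividing the difference of the pair `p`. -/
noncomputable def cnt (P : Finset ℕ) (p : ℕ × ℕ) : ℕ :=
  #(P.filter (fun e : ℕ => (e : ℤ) ∣ (p.1 : ℤ) - (p.2 : ℤ)))

/-- The potential function. -/
noncomputable def pot (D : Finset ℕ) (w : ℝ) (P : Finset ℕ) : ℝ :=
  ∑ p ∈ D.offDiag, (1 + w) ^ (cnt P p)

lemma pot_insert (D : Finset ℕ) (w : ℝ) (P : Finset ℕ) (e : ℕ) (he : e ∉ P) :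
    pot D w (insert e P) = ∑ p ∈ D.offDiag, (1 + w) ^ (cnt P p) *
      (if (e : ℤ) ∣ (p.1 : ℤ) - (p.2 : ℤ) then 1 + w else 1) := by
  unfold pot
  refine Finset.sum_congr rfl fun p _ => ?_
  unfold cnt
  rw [Finset.filter_insert]
  split_ifs with h
  · rw [Finset.card_insert_of_notMem (by simp [he]), pow_succ]
  · rw [mul_one]

lemma sum_ite_eq_card (A : Finset ℕ) (w : ℝ) (p : ℕ × ℕ) :
    ∑ e ∈ A, (if (e : ℤ) ∣ (p.1 : ℤ) - (p.2 : ℤ) then 1 + w else 1) =
      (#A : ℝ) + w * (cnt A p : ℝ) := by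
  have h : ∀ e ∈ A, (if (e : ℤ) ∣ (p.1 : ℤ) - (p.2 : ℤ) then 1 + w else 1) =
      1 + (if (e : ℤ) ∣ (p.1 : ℤ) - (p.2 : ℤ) then w else 0) := by
    intro e _
    split_ifs <;> simp
  rw [Finset.sum_congr rfl h, Finset.sum_add_distrib, Finset.sum_ite, Finset.sum_const_zero,
    add_zero, Finset.sum_const, Finset.sum_const]
  simp [cnt, mul_comm]

lemma sum_pot_insert_le (D : Finset ℕ) (w : ℝ) (hw : 0 ≤ w) (P A : Finset ℕ) (hA : Disjoint A P)
    (W : ℕ) (hW : ∀ p ∈ D.offDiag, cnt A p ≤ W) :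
    ∑ e ∈ A, pot D w (insert e P) ≤ pot D w P * ((#A : ℝ) + w * W) := by
  have h1 : ∀ e ∈ A, pot D w (insert e P) = ∑ p ∈ D.offDiag, (1 + w) ^ (cnt P p) *
      (if (e : ℤ) ∣ (p.1 : ℤ) - (p.2 : ℤ) then 1 + w else 1) :=
    fun e he => pot_insert D w P e (Finset.disjoint_left.mp hA he)
  rw [Finset.sum_congr rfl h1, Finset.sum_comm]
  unfold pot
  rw [Finset.sum_mul]
  refine Finset.sum_le_sum fun p hp => ?_
  rw [← Finset.mul_sum, sum_ite_eq_card]
  apply mul_le_mul_of_nonneg_left _ (by positivity)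
  have : (cnt A p : ℝ) ≤ W := by exact_mod_cast hW p hp
  nlinarith [this]

lemma exists_insert_le (D : Finset ℕ) (w : ℝ) (hw : 0 ≤ w) (P A : Finset ℕ) (hA : Disjoint A P)
    (hne : A.Nonempty) (W : ℕ) (hW : ∀ p ∈ D.offDiag, cnt A p ≤ W) :
    ∃ e ∈ A, pot D w (insert e P) ≤ pot D w P * (1 + w * W / #A) := by
  have hcard : (0 : ℝ) < #A := by exact_mod_cast hne.card_pos
  apply Finset.exists_le_of_sum_le hne
  rw [Finset.sum_const, nsmul_eq_mul]
  refine (sum_pot_insert_le D w hw P A hA W hW).trans (le_of_eq ?_)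
  field_simp

lemma pot_nonneg (D : Finset ℕ) (w : ℝ) (hw : 0 ≤ w) (P : Finset ℕ) : 0 ≤ pot D w P := by
  unfold pot
  positivity

lemma cnt_mono {A B : Finset ℕ} (h : A ⊆ B) (p : ℕ × ℕ) : cnt A p ≤ cnt B p :=
  Finset.card_le_card (Finset.filter_subset_filter _ h)

theorem greedy (D : Finset ℕ) (w : ℝ) (hw : 0 ≤ w) (A : Finset ℕ) (W : ℕ)
    (hW : ∀ p ∈ D.offDiag, cnt A p ≤ W) (v : ℕ) (hv : 0 < v) (r : ℕ) (hA : v + r ≤ #A) :
    ∃ P ⊆ A, #P = r ∧ pot D w P ≤ pot D w ∅ * (1 + w * W / v) ^ r := by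
  induction r with
  | zero => exact ⟨∅, by simp, by simp, by simp⟩
  | succ r ih =>
    obtain ⟨P, hPA, hcard, hpot⟩ := ih (by omega)
    set A' := A \ P with hA'
    have hcardA' : #A' = #A - r := by
      rw [hA', Finset.card_sdiff_of_subset hPA, hcard]
    have hne : A'.Nonempty := by
      apply Finset.card_pos.mp; omega
    obtain ⟨e, he, hle⟩ := exists_insert_le D w hw P A' Finset.sdiff_disjoint hne W
      (fun p hp => (cnt_mono Finset.sdiff_subset p).trans (hW p hp))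
    have heA : e ∈ A := (Finset.mem_sdiff.mp he).1
    have heP : e ∉ P := (Finset.mem_sdiff.mp he).2
    refine ⟨insert e P, Finset.insert_subset heA hPA, ?_, ?_⟩
    · rw [Finset.card_insert_of_notMem heP, hcard]
    · have hvA' : (v : ℝ) ≤ #A' := by
        rw [hcardA']
        exact_mod_cast (by omega : v ≤ #A - r)
      have hvpos : (0 : ℝ) < v := by exact_mod_cast hv
      have h1 : (1 + w * W / #A' : ℝ) ≤ 1 + w * W / v := by
        have : w * W / #A' ≤ w * W / v := by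
          apply div_le_div_of_nonneg_left (by positivity) hvpos hvA'
        linarith
      calc pot D w (insert e P) ≤ pot D w P * (1 + w * W / #A') := hle
        _ ≤ pot D w P * (1 + w * W / v) :=
            mul_le_mul_of_nonneg_left h1 (pot_nonneg D w hw P)
        _ ≤ (pot D w ∅ * (1 + w * W / v) ^ r) * (1 + w * W / v) :=
            mul_le_mul_of_nonneg_right hpot (by positivity)
        _ = pot D w ∅ * (1 + w * W / v) ^ (r + 1) := by ring

lemma pot_empty_le (D : Finset ℕ) (w : ℝ) : pot D w ∅ ≤ (#D : ℝ) ^ 2 := by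
  unfold pot cnt
  simp only [Finset.filter_empty, Finset.card_empty, pow_zero, Finset.sum_const, nsmul_eq_mul,
    mul_one]
  have : #D.offDiag ≤ #D ^ 2 := by
    rw [Finset.offDiag_card, sq]
    exact Nat.sub_le _ _
  exact_mod_cast this

lemma one_add_pow_le (x : ℝ) (hx : 0 ≤ x) (r : ℕ) (h : 2 * r * x ≤ 1) :
    (1 + x) ^ r ≤ 1 + 2 * r * x := by
  induction r with
  | zero => simp
  | succ r ih =>
    have h' : 2 * (r : ℝ) * x ≤ 1 := by
      push_cast at h
      nlinarith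
    have := ih h'
    rw [pow_succ]
    push_cast at h ⊢
    have h3 : (1 + x) ^ r * (1 + x) ≤ (1 + 2 * r * x) * (1 + x) :=
      mul_le_mul_of_nonneg_right this (by linarith)
    nlinarith [mul_nonneg hx hx, mul_nonneg (mul_nonneg (by positivity : (0 : ℝ) ≤ 2 * r) hx) hx,
      mul_le_mul_of_nonneg_right h' hx]

/-- Off-diagonal pairs whose difference is divisible by all elements of `I`. -/
noncomputable def offN (D I : Finset ℕ) : ℕ :=
  #(D.offDiag.filter (fun p : ℕ × ℕ => ∀ e ∈ I, (e : ℤ) ∣ (p.1 : ℤ) - (p.2 : ℤ)))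

lemma offN_mul_le_pot (D : Finset ℕ) (w : ℝ) (hw : 0 ≤ w) (P I : Finset ℕ) (hI : I ⊆ P) :
    (offN D I : ℝ) * (1 + w) ^ #I ≤ pot D w P := by
  unfold offN pot
  rw [← nsmul_eq_mul, ← Finset.sum_const]
  calc ∑ _p ∈ D.offDiag.filter (fun p : ℕ × ℕ => ∀ e ∈ I, (e : ℤ) ∣ (p.1 : ℤ) - (p.2 : ℤ)),
        (1 + w) ^ #I
      ≤ ∑ p ∈ D.offDiag.filter (fun p : ℕ × ℕ => ∀ e ∈ I, (e : ℤ) ∣ (p.1 : ℤ) - (p.2 : ℤ)),
        (1 + w) ^ (cnt P p) := by
        refine Finset.sum_le_sum fun p hp => ?_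
        apply pow_le_pow_right₀ (by linarith)
        unfold cnt
        apply Finset.card_le_card
        intro e he
        simp only [Finset.mem_filter] at hp ⊢
        exact ⟨hI he, hp.2 e he⟩
    _ ≤ ∑ p ∈ D.offDiag, (1 + w) ^ (cnt P p) := by
        apply Finset.sum_le_sum_of_subset_of_nonneg (Finset.filter_subset _ _)
        intro p _ _
        positivity

/-- Collisions modulo a product are bounded via `offN`. -/
lemma coll_ord_le (D I : Finset ℕ) (hI : ∀ e ∈ I, (e : ℤ) ∣ ((∏ e ∈ I, e : ℕ) : ℤ)) :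
    coll_ord D (∏ e ∈ I, e) ≤ #D + offN D I := by
  unfold coll_ord offN
  have hsub : (D ×ˢ D).filter (fun p : ℕ × ℕ => ((∏ e ∈ I, e : ℕ) : ℤ) ∣ (p.1 : ℤ) - (p.2 : ℤ)) ⊆
      D.diag ∪ D.offDiag.filter (fun p : ℕ × ℕ => ∀ e ∈ I, (e : ℤ) ∣ (p.1 : ℤ) - (p.2 : ℤ)) := by
    intro p hp
    simp only [Finset.mem_filter, Finset.mem_product] at hp
    simp only [Finset.mem_union, Finset.mem_diag, Finset.mem_filter, Finset.mem_offDiag]
    by_cases h : p.1 = p.2
    · left; exact ⟨hp.1.1, h⟩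
    · right; exact ⟨⟨hp.1.1, hp.1.2, h⟩, fun e he => (hI e he).trans hp.2⟩
  refine (Finset.card_le_card hsub).trans ((Finset.card_union_le _ _).trans ?_)
  rw [Finset.diag_card]

lemma dvd_prod_int (I : Finset ℕ) : ∀ e ∈ I, (e : ℤ) ∣ ((∏ e ∈ I, e : ℕ) : ℤ) := by
  intro e he
  exact_mod_cast Finset.dvd_prod_of_mem (fun x => x) he

end Greedy

end Vale.Agent.Lib.P012
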