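import Vale.Agent.Lib.P012.Stage

namespace Vale.Agent.Lib.P012

open Finset

section Base

lemma binary (k : ℕ) : ∀ n < 2 ^ k, ∃ T ⊆ Finset.range k, ∑ i ∈ T, 2 ^ i = n := by
  induction k with
  | zero =>
    intro n hn
    refine ⟨∅, by simp, ?_⟩
    simp at hn
    simp [hn]
  | succ k ih =>
    intro n hn
    by_cases h : n < 2 ^ k
    · obtain ⟨T, hT, hs⟩ := ih n h
      exact ⟨T, hT.trans (Finset.range_subset_range.mpr (by omega)), hs⟩
    · push Not at h
      have h' : n - 2 ^ k < 2 ^ k := by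
        rw [pow_succ] at hn
        omega
      obtain ⟨T, hT, hs⟩ := ih (n - 2 ^ k) h'
      have hk : k ∉ T := fun hk => by
        have := hT hk
        simp at this
      refine ⟨insert k T, ?_, ?_⟩
      · intro x hx
        rcases Finset.mem_insert.mp hx with rfl | hx
        · simp
        · have := hT hx
          simp only [Finset.mem_range] at this ⊢
          omega
      · rw [Finset.sum_insert hk, hs]
        omega

lemma rep_base (k O : ℕ) (hO : Odd O) (hO1 : 1 < O) (hOk : O ≤ 2 ^ k) :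
    Rep (2 ^ k * O) (2 * k) := by
  intro n hn
  have hOpos : 0 < O := by omega
  set q := n / O with hq
  set s := n % O with hs
  have hqlt : q < 2 ^ k := Nat.div_lt_of_lt_mul (by rw [mul_comm]; exact hn)
  have hslt : s < 2 ^ k := lt_of_lt_of_le (Nat.mod_lt _ hOpos) hOk
  obtain ⟨T1, hT1, hs1⟩ := binary k q hqlt
  obtain ⟨T2, hT2, hs2⟩ := binary k s hslt
  have hne : 2 ^ k * O ≠ 0 := by positivity
  refine ⟨T1.image (fun i => 2 ^ i * O) ∪ T2.image (fun i => 2 ^ i), ?_, ?_, ?_⟩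
  · intro d hd
    rw [Nat.mem_divisors]
    refine ⟨?_, hne⟩
    rcases Finset.mem_union.mp hd with hd | hd
    · obtain ⟨i, hi, rfl⟩ := Finset.mem_image.mp hd
      have : i ≤ k := (Finset.mem_range.mp (hT1 hi)).le
      exact Nat.mul_dvd_mul_right (pow_dvd_pow 2 this) O
    · obtain ⟨i, hi, rfl⟩ := Finset.mem_image.mp hd
      have : i ≤ k := (Finset.mem_range.mp (hT2 hi)).le
      exact (pow_dvd_pow 2 this).mul_right O
  · have hdisj : Disjoint (T1.image (fun i => 2 ^ i * O)) (T2.image (fun i => 2 ^ i)) := by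
      rw [Finset.disjoint_left]
      intro d hd hd2
      obtain ⟨i, _, rfl⟩ := Finset.mem_image.mp hd
      obtain ⟨j, _, hj⟩ := Finset.mem_image.mp hd2
      have hdvd : O ∣ 2 ^ j := by
        rw [hj]
        exact Dvd.intro_left _ rfl
      have hcop : Nat.Coprime O (2 ^ j) := Nat.Coprime.pow_right j (Nat.coprime_two_right.mpr hO)
      have := Nat.Coprime.eq_one_of_dvd hcop hdvd
      omega
    rw [Finset.sum_union hdisj, Finset.sum_image, Finset.sum_image]
    · rw [← Finset.sum_mul, hs1, hs2, hq, hs, mul_comm]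
      exact Nat.div_add_mod n O
    · intro i _ j _ hij
      exact Nat.pow_right_injective (le_refl 2) hij
    · intro i _ j _ hij
      exact Nat.pow_right_injective (le_refl 2) (Nat.eq_of_mul_eq_mul_right hOpos hij)
  · refine (Finset.card_union_le _ _).trans ?_
    have h1 : #(T1.image (fun i => 2 ^ i * O)) ≤ #T1 := Finset.card_image_le
    have h2 : #(T2.image (fun i => 2 ^ i)) ≤ #T2 := Finset.card_image_le
    have h3 : #T1 ≤ k := by simpa using Finset.card_le_card hT1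
    have h4 : #T2 ≤ k := by simpa using Finset.card_le_card hT2
    omega

lemma base_state (K : ℕ) (hK : 12 ≤ K) (A : Finset ℕ)
    (hA : ∀ e ∈ A, e.Prime ∧ e ≠ 2 ∧ e ≤ 2 ^ (20 * K)) (hcardA : 20 * K ≤ #A) :
    State A (20 * K) (2 * (800 * K ^ 2 + 4)) := by
  obtain ⟨P, hPA, hPcard⟩ := Finset.exists_subset_card_eq hcardA
  refine ⟨P, hPA, hPcard, 800 * K ^ 2 + 4, by omega, ?_⟩
  have hQodd := prod_primes_odd P (fun e he => ⟨(hA e (hPA he)).1, (hA e (hPA he)).2.1⟩)
  have hQle : ∏ e ∈ P, e ≤ 2 ^ (400 * K ^ 2) := by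
    calc ∏ e ∈ P, e ≤ (2 ^ (20 * K)) ^ #P :=
          Finset.prod_le_pow_card _ _ _ (fun e he => (hA e (hPA he)).2.2)
      _ = 2 ^ (400 * K ^ 2) := by
        rw [hPcard, ← pow_mul]
        congr 1
        ring
  have hQ1 : 1 < ∏ e ∈ P, e := by
    obtain ⟨e, he⟩ : P.Nonempty := by
      apply Finset.card_pos.mp
      omega
    have hprime := (hA e (hPA he)).1
    have hedvd : e ∣ ∏ e ∈ P, e := Finset.dvd_prod_of_mem _ he
    have hpos : 0 < ∏ e ∈ P, e :=
      Finset.prod_pos fun x hx => (hA x (hPA hx)).1.pos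
    have := Nat.le_of_dvd hpos hedvd
    have := hprime.two_le
    omega
  apply rep_base _ _ hQodd.pow
  · calc 1 < ∏ e ∈ P, e := hQ1
      _ ≤ (∏ e ∈ P, e) ^ 2 := Nat.le_self_pow (by norm_num) _
  · calc (∏ e ∈ P, e) ^ 2 ≤ (2 ^ (400 * K ^ 2)) ^ 2 := Nat.pow_le_pow_left hQle 2
      _ = 2 ^ (800 * K ^ 2) := by
        rw [← pow_mul]
        congr 1
        ring
      _ ≤ 2 ^ (800 * K ^ 2 + 4) := Nat.pow_le_pow_right (by norm_num) (by omega)

end Base

section Loop

theorem loop (K : ℕ) (hK : 12 ≤ K) (A : Finset ℕ)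
    (hA : ∀ e ∈ A, e.Prime ∧ e ≠ 2 ∧ e ≤ 2 ^ (20 * K))
    (hcardA : 2 ^ (18 * K + 1) + 2 ^ (K + 1) ≤ #A) (hcardA2 : 20 * K ≤ #A) (j : ℕ) :
    ∃ ω, State A ω (2 * (800 * K ^ 2 + 4) + 8 * j) ∧ 20 * K ≤ ω ∧
      (2 ^ K ≤ ω ∨ (20 * K : ℝ) * (1 + 1 / (40 * K : ℝ)) ^ j ≤ ω) := by
  have hKpos : (0 : ℝ) < K := by
    have : 0 < K := by omega
    exact_mod_cast this
  induction j with
  | zero =>
    refine ⟨20 * K, ?_, le_rfl, Or.inr ?_⟩
    · simpa using base_state K hK A hA hcardA2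
    · simp
  | succ j ih =>
    obtain ⟨ω, hS, h1, h2⟩ := ih
    by_cases h : 2 ^ K ≤ ω
    · exact ⟨ω, hS.mono (by omega), h1, Or.inl h⟩
    · push Not at h
      have hst := stage K hK A hA hcardA ω _ h1 h hS
      refine ⟨ω + ω / (20 * K), ?_, Nat.le_add_right_of_le h1, Or.inr ?_⟩
      · exact hst.mono (by omega)
      · have h2' : (20 * K : ℝ) * (1 + 1 / (40 * K : ℝ)) ^ j ≤ ω := by
          rcases h2 with h2 | h2
          · omega
          · exact h2
        set q := ω / (20 * K) with hq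
        have hqpos : 1 ≤ q := Nat.div_pos h1 (by omega)
        have hdiv : ω < 2 * (20 * K) * q := by
          have h3 := Nat.div_add_mod ω (20 * K)
          have h4 : ω % (20 * K) < 20 * K := Nat.mod_lt _ (by omega)
          have h5 : 20 * K ≤ 20 * K * q := Nat.le_mul_of_pos_right _ hqpos
          rw [← hq] at h3
          nlinarith
        have hdivR : (ω : ℝ) ≤ 40 * K * q := by
          have : (ω : ℝ) < 2 * (20 * K) * q := by exact_mod_cast hdiv
          linarith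
        have hqR : (ω : ℝ) * (1 / (40 * K : ℝ)) ≤ q := by
          rw [mul_one_div, div_le_iff₀ (by positivity)]
          linarith
        push_cast
        rw [pow_succ]
        have h6 : (0 : ℝ) ≤ 1 / (40 * K : ℝ) := by positivity
        calc (20 * (K : ℝ)) * ((1 + 1 / (40 * (K : ℝ))) ^ j * (1 + 1 / (40 * (K : ℝ))))
            = ((20 * (K : ℝ)) * (1 + 1 / (40 * (K : ℝ))) ^ j) * (1 + 1 / (40 * (K : ℝ))) := by ring
          _ ≤ (ω : ℝ) * (1 + 1 / (40 * (K : ℝ))) := by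
            apply mul_le_mul_of_nonneg_right h2' (by positivity)
          _ = ω + ω * (1 / (40 * (K : ℝ))) := by ring
          _ ≤ ω + q := by linarith

lemma bernoulli_two (K : ℕ) (hK : 0 < K) : (2 : ℝ) ≤ (1 + 1 / (40 * K : ℝ)) ^ (40 * K) := by
  have hKpos : (0 : ℝ) < K := by exact_mod_cast hK
  have h := one_add_mul_le_pow (a := 1 / (40 * K : ℝ)) (by
    have : (0 : ℝ) ≤ 1 / (40 * K : ℝ) := by positivity
    linarith) (40 * K)
  have h2 : ((40 * K : ℕ) : ℝ) * (1 / (40 * K : ℝ)) = 1 := by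
    push_cast
    field_simp
  rw [h2] at h
  linarith

theorem main_rep_of_card (K : ℕ) (hK : 12 ≤ K) (A : Finset ℕ)
    (hA : ∀ e ∈ A, e.Prime ∧ e ≠ 2 ∧ e ≤ 2 ^ (20 * K))
    (hcardA : 2 ^ (18 * K + 1) + 2 ^ (K + 1) ≤ #A) (hcardA2 : 20 * K ≤ #A) :
    ∃ N, 2 ^ (2 ^ K) ≤ N ∧ Rep N (1920 * K ^ 2 + 8) := by
  obtain ⟨ω, hS, h1, h2⟩ := loop K hK A hA hcardA hcardA2 (40 * K * K)
  have hωK : 2 ^ K ≤ ω := by
    rcases h2 with h2 | h2
    · exact h2
    · have hKpos : 0 < K := by omega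
      have h3 := bernoulli_two K hKpos
      have hKR : (1 : ℝ) ≤ K := by exact_mod_cast hKpos
      have h4 : (2 : ℝ) ^ K ≤ (1 + 1 / (40 * K : ℝ)) ^ (40 * K * K) := by
        rw [pow_mul]
        exact pow_le_pow_left₀ (by norm_num) h3 K
      have h5 : (2 : ℝ) ^ K ≤ ω := by
        have h6 : (0 : ℝ) < (1 + 1 / (40 * K : ℝ)) ^ (40 * K * K) := by positivity
        nlinarith
      exact_mod_cast h5
  obtain ⟨P, hPA, hPcard, k, hk, hrep⟩ := hS
  refine ⟨2 ^ k * (∏ e ∈ P, e) ^ 2, ?_, ?_⟩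
  · have hprod : 2 ^ #P ≤ ∏ e ∈ P, e :=
      Finset.pow_card_le_prod _ _ _ (fun e he => (hA e (hPA he)).1.two_le)
    have hpos : 0 < ∏ e ∈ P, e := Finset.prod_pos fun x hx => (hA x (hPA hx)).1.pos
    calc 2 ^ (2 ^ K) ≤ 2 ^ ω := Nat.pow_le_pow_right (by norm_num) hωK
      _ = 2 ^ #P := by rw [hPcard]
      _ ≤ ∏ e ∈ P, e := hprod
      _ ≤ (∏ e ∈ P, e) ^ 2 := Nat.le_self_pow (by norm_num) _
      _ ≤ 2 ^ k * (∏ e ∈ P, e) ^ 2 := Nat.le_mul_of_pos_left _ (by positivity)
  · apply hrep.mono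
    have : (2 * (800 * K ^ 2 + 4) + 8 * (40 * K * K)) = 1920 * K ^ 2 + 8 := by ring
    omega

end Loop

section Count

lemma pi_lower (K : ℕ) (hK : 12 ≤ K) :
    2 ^ (18 * K + 1) + 2 ^ (K + 1) + 1 ≤ Nat.primeCounting (2 ^ (20 * K)) := by
  have hpi := Chebyshev.pi_ge (2 ^ (20 * K))
  set n : ℕ := 2 ^ (20 * K) with hn
  have hlog2 : 0 < Real.log 2 := Real.log_pos (by norm_num)
  have hKpos : (0 : ℝ) < K := by
    have : 0 < K := by omega
    exact_mod_cast this
  have hlogn : Real.log n = (20 * K : ℝ) * Real.log 2 := by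
    rw [hn]
    push_cast
    rw [Real.log_pow]
    push_cast
    ring
  have hnpos : (1 : ℝ) ≤ n := by
    have : 1 ≤ n := Nat.one_le_two_pow
    exact_mod_cast this
  have hlogn1 : Real.log ((n : ℝ) + 1) ≤ (20 * K + 1 : ℝ) * Real.log 2 := by
    have h1 : ((n : ℝ) + 1) ≤ 2 * n := by linarith
    have h2 : Real.log ((n : ℝ) + 1) ≤ Real.log (2 * n) :=
      Real.log_le_log (by positivity) h1
    rw [Real.log_mul (by norm_num) (by positivity), hlogn] at h2
    linarith
  have hkey : (n : ℝ) ≤ 20 * K * (Nat.primeCounting n : ℝ) + 20 * K + 1 := by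
    rw [hlogn, div_le_iff₀ (by positivity)] at hpi
    have h3 : (n : ℝ) * Real.log 2 ≤ (20 * K * (Nat.primeCounting n : ℝ) + 20 * K + 1) * Real.log 2 := by
      nlinarith
    exact le_of_mul_le_mul_right h3 hlog2
  by_contra hcontra
  push Not at hcontra
  set Y := 2 ^ (18 * K + 1) + 2 ^ (K + 1) with hY
  have hpiY : Nat.primeCounting n ≤ Y := by omega
  have hkey2 : n ≤ 20 * K * Y + 20 * K + 1 := by
    have h4 : (n : ℝ) ≤ 20 * K * (Y : ℝ) + 20 * K + 1 := by
      have h5 : (Nat.primeCounting n : ℝ) ≤ Y := by exact_mod_cast hpiY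
      nlinarith
    exact_mod_cast h4
  set u : ℕ := 2 ^ K with hu
  have hKu : K < u := Nat.lt_two_pow_self
  have hu4096 : 4096 ≤ u := by
    calc 4096 = 2 ^ 12 := by norm_num
      _ ≤ 2 ^ K := Nat.pow_le_pow_right (by norm_num) hK
  set v : ℕ := u ^ 18 with hv
  have huv : u ≤ v := by
    rw [hv]
    exact Nat.le_self_pow (by norm_num) _
  have hn2 : n = u ^ 2 * v := by
    rw [hn, hv, hu, ← pow_mul, ← pow_mul, ← pow_add]
    congr 1
    ring
  have hY2 : Y = 2 * v + 2 * u := by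
    rw [hY, hv, hu, ← pow_mul, pow_succ, pow_succ]
    have : K * 18 = 18 * K := by ring
    rw [this]
    ring
  rw [hn2, hY2] at hkey2
  have h6 : 20 * K * (2 * v + 2 * u) + 20 * K + 1 ≤ 20 * u * (2 * v + 2 * u) + 20 * u + 1 := by
    have : 20 * K ≤ 20 * u := by omega
    have h7 := Nat.mul_le_mul_right (2 * v + 2 * u) this
    omega
  have h8 : 20 * u * (2 * v + 2 * u) + 20 * u + 1 < u ^ 2 * v := by
    have h9 : 4096 * (u * v) ≤ u ^ 2 * v := by
      have : u ^ 2 * v = u * (u * v) := by ring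
      rw [this]
      exact Nat.mul_le_mul_right _ hu4096
    have h10 : u * u ≤ u * v := Nat.mul_le_mul_left _ huv
    nlinarith
  omega

end Count

section Egyptian

theorem egyptian_of_rep (N h a b : ℕ) (ha : 1 ≤ a) (hab : a < b) (hbN : b ≤ N) (hrep : Rep N h) :
    ∃ S : Finset ℕ, (∀ n ∈ S, 2 ≤ n) ∧ #S ≤ 2 * h ∧
      ∑ n ∈ S, (1 : ℚ) / n = (a : ℚ) / b := by
  have hb0 : 0 < b := by omega
  have hN0 : 0 < N := by omega
  have hb2 : 2 ≤ b := by omega
  set q := a * N / b with hq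
  set r := a * N % b with hr
  have hqr : b * q + r = a * N := Nat.div_add_mod _ _
  have hrlt : r < b := Nat.mod_lt _ hb0
  have hqlt : q < N := by
    apply Nat.div_lt_of_lt_mul
    exact Nat.mul_lt_mul_of_pos_right hab hN0
  obtain ⟨S1, hS1, hs1, hc1⟩ := hrep q hqlt
  obtain ⟨S2, hS2, hs2, hc2⟩ := hrep r (by omega)
  have hdvd1 : ∀ d ∈ S1, d ∣ N ∧ 0 < d ∧ d ≤ q := by
    intro d hd
    have h1 := Nat.mem_divisors.mp (hS1 hd)
    refine ⟨h1.1, Nat.pos_of_dvd_of_pos h1.1 hN0, ?_⟩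
    rw [← hs1]
    exact Finset.single_le_sum (f := fun x => x) (fun _ _ => Nat.zero_le _) hd
  have hdvd2 : ∀ d ∈ S2, d ∣ N ∧ 0 < d ∧ d ≤ r := by
    intro d hd
    have h1 := Nat.mem_divisors.mp (hS2 hd)
    refine ⟨h1.1, Nat.pos_of_dvd_of_pos h1.1 hN0, ?_⟩
    rw [← hs2]
    exact Finset.single_le_sum (f := fun x => x) (fun _ _ => Nat.zero_le _) hd
  have hinj1 : Set.InjOn (fun d => N / d) (S1 : Set ℕ) := by
    intro x hx y hy hxy
    obtain ⟨h1, h2, _⟩ := hdvd1 x hx
    obtain ⟨h3, h4, _⟩ := hdvd1 y hy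
    have h5 : N / x = N / y := hxy
    have h6 : N / x * x = N := Nat.div_mul_cancel h1
    have h7 : N / y * y = N := Nat.div_mul_cancel h3
    rw [← h5] at h7
    have h8 : 0 < N / x := Nat.div_pos (Nat.le_of_dvd hN0 h1) h2
    exact Nat.eq_of_mul_eq_mul_left h8 (h6.trans h7.symm)
  have hinj2 : Set.InjOn (fun d => b * N / d) (S2 : Set ℕ) := by
    intro x hx y hy hxy
    obtain ⟨h1, h2, _⟩ := hdvd2 x hx
    obtain ⟨h3, h4, _⟩ := hdvd2 y hy
    have h1' : x ∣ b * N := h1.mul_left b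
    have h3' : y ∣ b * N := h3.mul_left b
    have h5 : b * N / x = b * N / y := hxy
    have h6 : b * N / x * x = b * N := Nat.div_mul_cancel h1'
    have h7 : b * N / y * y = b * N := Nat.div_mul_cancel h3'
    rw [← h5] at h7
    have hbNpos : 0 < b * N := by positivity
    have h8 : 0 < b * N / x := Nat.div_pos (Nat.le_of_dvd hbNpos h1') h2
    exact Nat.eq_of_mul_eq_mul_left h8 (h6.trans h7.symm)
  have hT2gt : ∀ d ∈ S2, N < b * N / d := by
    intro d hd
    obtain ⟨h1, h2, h3⟩ := hdvd2 d hd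
    have h1' : d ∣ b * N := h1.mul_left b
    rw [Nat.lt_div_iff_mul_lt' h1']
    exact Nat.mul_lt_mul_of_pos_right (by omega) hN0
  have hT1le : ∀ d ∈ S1, N / d ≤ N := fun d _ => Nat.div_le_self _ _
  have hdisj : Disjoint (S1.image (fun d => N / d)) (S2.image (fun d => b * N / d)) := by
    rw [Finset.disjoint_left]
    intro x hx hx2
    obtain ⟨d, hd, rfl⟩ := Finset.mem_image.mp hx
    obtain ⟨d2, hd2, hd2eq⟩ := Finset.mem_image.mp hx2
    have h1 := hT1le d hd
    have h2 := hT2gt d2 hd2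
    rw [hd2eq] at h2
    omega
  refine ⟨S1.image (fun d => N / d) ∪ S2.image (fun d => b * N / d), ?_, ?_, ?_⟩
  · intro n hn
    rcases Finset.mem_union.mp hn with hn | hn
    · obtain ⟨d, hd, rfl⟩ := Finset.mem_image.mp hn
      obtain ⟨h1, h2, h3⟩ := hdvd1 d hd
      have h4 : d < N := by omega
      have h5 : N / d * d = N := Nat.div_mul_cancel h1
      by_contra hcon
      push Not at hcon
      have h6 : N / d ≤ 1 := by omega
      have h7 : N / d * d ≤ 1 * d := Nat.mul_le_mul_right _ h6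
      omega
    · obtain ⟨d, hd, rfl⟩ := Finset.mem_image.mp hn
      have := hT2gt d hd
      omega
  · refine (Finset.card_union_le _ _).trans ?_
    have h1 : #(S1.image (fun d => N / d)) ≤ #S1 := Finset.card_image_le
    have h2 : #(S2.image (fun d => b * N / d)) ≤ #S2 := Finset.card_image_le
    omega
  · rw [Finset.sum_union hdisj, Finset.sum_image hinj1, Finset.sum_image hinj2]
    have hNQ : (N : ℚ) ≠ 0 := by positivity
    have hbQ : (b : ℚ) ≠ 0 := by positivity
    have h1 : ∑ d ∈ S1, (1 : ℚ) / ((N / d : ℕ) : ℚ) = (q : ℚ) / N := by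
      rw [← hs1]
      push_cast
      rw [Finset.sum_div]
      refine Finset.sum_congr rfl fun d hd => ?_
      obtain ⟨h1, h2, _⟩ := hdvd1 d hd
      have hdQ : (d : ℚ) ≠ 0 := by positivity
      rw [Nat.cast_div h1 hdQ]
      field_simp
    have h2 : ∑ d ∈ S2, (1 : ℚ) / ((b * N / d : ℕ) : ℚ) = (r : ℚ) / (b * N) := by
      rw [← hs2]
      push_cast
      rw [Finset.sum_div]
      refine Finset.sum_congr rfl fun d hd => ?_
      obtain ⟨h1, h2, _⟩ := hdvd2 d hd
      have hdQ : (d : ℚ) ≠ 0 := by positivity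
      have h1' : d ∣ b * N := h1.mul_left b
      rw [Nat.cast_div h1' hdQ]
      push_cast
      field_simp
    rw [h1, h2]
    have h3 : (b : ℚ) * q + r = a * N := by exact_mod_cast hqr
    field_simp
    linarith

end Egyptian

section Final

theorem main_rep (K : ℕ) (hK : 12 ≤ K) : ∃ N, 2 ^ (2 ^ K) ≤ N ∧ Rep N (1920 * K ^ 2 + 8) := by
  set A := (Nat.primesLE (2 ^ (20 * K))).erase 2 with hAdef
  have hA : ∀ e ∈ A, e.Prime ∧ e ≠ 2 ∧ e ≤ 2 ^ (20 * K) := by
    intro e he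
    obtain ⟨h1, h2⟩ := Finset.mem_erase.mp he
    exact ⟨Nat.prime_of_mem_primesLE h2, h1, Nat.le_of_mem_primesLE h2⟩
  have hcard : Nat.primeCounting (2 ^ (20 * K)) - 1 ≤ #A := by
    rw [← Nat.primesLE_card_eq_primeCounting]
    exact Finset.pred_card_le_card_erase
  have hpi := pi_lower K hK
  have hcardA : 2 ^ (18 * K + 1) + 2 ^ (K + 1) ≤ #A := by omega
  have hcardA2 : 20 * K ≤ #A := by
    have h1 : K < 2 ^ K := Nat.lt_two_pow_self
    have h2 : 2 ^ K * 32 ≤ 2 ^ (18 * K + 1) := by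
      calc 2 ^ K * 32 = 2 ^ (K + 5) := by rw [pow_add]; norm_num
        _ ≤ 2 ^ (18 * K + 1) := Nat.pow_le_pow_right (by norm_num) (by omega)
    omega
  exact main_rep_of_card K hK A hA hcardA hcardA2

theorem egyptian_K (K : ℕ) (hK : 12 ≤ K) (a b : ℕ) (ha : 1 ≤ a) (hab : a < b)
    (hb : b ≤ 2 ^ (2 ^ K)) :
    ∃ S : Finset ℕ, (∀ n ∈ S, 2 ≤ n) ∧ #S ≤ 2 * (1920 * K ^ 2 + 8) ∧
      ∑ n ∈ S, (1 : ℚ) / n = (a : ℚ) / b := by
  obtain ⟨N, hN, hrep⟩ := main_rep K hK
  exact egyptian_of_rep N _ a b ha hab (hb.trans hN) hrep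

lemma K_bound (b : ℕ) (hb : 16 ≤ b) :
    b ≤ 2 ^ (2 ^ (12 + Nat.clog 2 (Nat.clog 2 b))) ∧
      ((12 + Nat.clog 2 (Nat.clog 2 b) : ℕ) : ℝ) ≤ 16 * Real.log (Real.log b) ∧
      1 ≤ Real.log (Real.log b) := by
  set m := Nat.clog 2 b with hm
  set c := Nat.clog 2 m with hc
  have hm4 : 4 ≤ m := by
    have : Nat.clog 2 16 ≤ m := Nat.clog_mono_right 2 hb
    have h16 : Nat.clog 2 16 = 4 := by
      rw [show (16 : ℕ) = 2 ^ 4 by norm_num]
      exact Nat.clog_pow 2 4 (by norm_num)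
    omega
  have hlog2l : (0.6931471803 : ℝ) < Real.log 2 := Real.log_two_gt_d9
  have hlog2u : Real.log 2 < 0.6931471808 := Real.log_two_lt_d9
  set L := Real.log b with hL
  have hbR : (16 : ℝ) ≤ b := by exact_mod_cast hb
  have hL4 : 4 * Real.log 2 ≤ L := by
    have h : Real.log 16 ≤ L := Real.log_le_log (by norm_num) hbR
    have h2 : Real.log 16 = 4 * Real.log 2 := by
      rw [show (16 : ℝ) = 2 ^ 4 by norm_num, Real.log_pow]
      norm_num
    linarith
  have hLpos : 0 < L := by linarith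
  have hlogL : 1 ≤ Real.log L := by
    rw [Real.le_log_iff_exp_le hLpos]
    have := Real.exp_one_lt_d9
    linarith
  refine ⟨?_, ?_, hlogL⟩
  · have h1 : b ≤ 2 ^ m := Nat.le_pow_clog (by norm_num) b
    have h2 : m ≤ 2 ^ c := Nat.le_pow_clog (by norm_num) m
    have h3 : m ≤ 2 ^ (12 + c) := h2.trans (Nat.pow_le_pow_right (by norm_num) (by omega))
    exact h1.trans (Nat.pow_le_pow_right (by norm_num) h3)
  · -- bound on m
    have hmb : 2 ^ (m - 1) < b := by
      have := Nat.pow_pred_clog_lt_self (b := 2) (by norm_num) (x := b) (by omega)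
      simpa [hm] using this
    have hmbR : ((m : ℝ) - 1) * Real.log 2 ≤ L := by
      have h1 : ((2 : ℝ) ^ (m - 1)) ≤ b := by exact_mod_cast hmb.le
      have h2 := Real.log_le_log (by positivity) h1
      rw [Real.log_pow] at h2
      have h3 : ((m - 1 : ℕ) : ℝ) = (m : ℝ) - 1 := by
        rw [Nat.cast_sub (by omega)]
        simp
      rw [h3] at h2
      exact h2
    have hm2L : (m : ℝ) ≤ 2 * L := by
      have h4 : (m : ℝ) * Real.log 2 ≤ L + Real.log 2 := by linarith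
      have h5 : L + Real.log 2 ≤ (2 * L) * Real.log 2 := by nlinarith
      exact le_of_mul_le_mul_right (h4.trans h5) (by linarith)
    -- bound on c
    have hcm : 2 ^ (c - 1) < m := by
      have := Nat.pow_pred_clog_lt_self (b := 2) (by norm_num) (x := m) (by omega)
      simpa [hc] using this
    have hc1 : 1 ≤ c := by
      rw [hc]
      exact Nat.clog_pos (by norm_num) (by omega)
    have hcR : ((c : ℝ) - 1) * Real.log 2 ≤ Real.log 2 + Real.log L := by
      have h1 : ((2 : ℝ) ^ (c - 1)) ≤ 2 * L := by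
        have : ((2 : ℝ) ^ (c - 1)) ≤ m := by exact_mod_cast hcm.le
        linarith
      have h2 := Real.log_le_log (by positivity) h1
      rw [Real.log_pow, Real.log_mul (by norm_num) hLpos.ne'] at h2
      have h3 : ((c - 1 : ℕ) : ℝ) = (c : ℝ) - 1 := by
        rw [Nat.cast_sub hc1]
        simp
      rw [h3] at h2
      exact h2
    have hcfin : (c : ℝ) ≤ 2 + 2 * Real.log L := by
      have h4 : (c : ℝ) * Real.log 2 ≤ 2 * Real.log 2 + Real.log L := by linarith
      have h5 : 2 * Real.log 2 + Real.log L ≤ (2 + 2 * Real.log L) * Real.log 2 := by nlinarith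
      exact le_of_mul_le_mul_right (h4.trans h5) (by linarith)
    push_cast
    linarith

end Final

end Vale.Agent.Lib.P012
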