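import Vale.Agent.Lib.P012.Main

namespace Vale.Agent.Lib.P012

open Finset

section RbBasics

/-- Every number below `X` is a sum of at most `h` distinct divisors of `X * Q ^ 2`. -/
def Rb (Q X h : ℕ) : Prop :=
  ∀ n < X, ∃ S : Finset ℕ, S ⊆ (X * Q ^ 2).divisors ∧ ∑ d ∈ S, d = n ∧ #S ≤ h

lemma rb_base (Q k : ℕ) (hQ : 0 < Q) : Rb Q (2 ^ k) k := by
  intro n hn
  obtain ⟨T, hT, hs⟩ := binary k n hn
  refine ⟨T.image (fun i => 2 ^ i), ?_, ?_, ?_⟩
  · intro d hd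
    obtain ⟨i, hi, rfl⟩ := Finset.mem_image.mp hd
    have : i ≤ k := (Finset.mem_range.mp (hT hi)).le
    exact Nat.mem_divisors.mpr ⟨(pow_dvd_pow 2 this).mul_right _, by positivity⟩
  · rw [Finset.sum_image]
    · exact hs
    · intro i _ j _ hij
      exact Nat.pow_right_injective (le_refl 2) hij
  · calc #(T.image (fun i => 2 ^ i)) ≤ #T := Finset.card_image_le
      _ ≤ k := by simpa using Finset.card_le_card hT

lemma rb_step (Q X E h : ℕ) (hQ : 0 < Q) (hX : 0 < X) (hE : 1 < E)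
    (digit : ∀ c : ℕ, ∃ s : Finset ℕ, #s ≤ 4 ∧ (∀ d ∈ s, d ∣ X * Q ^ 2 ∧ ¬ E ∣ d) ∧
      ∑ d ∈ s, d ≤ X ∧ ((∑ d ∈ s, d : ℕ) : ZMod E) = (c : ZMod E))
    (hrep : Rb Q X h) : Rb Q (X * E) (h + 4) := by
  intro n hn
  have hE0 : 0 < E := by omega
  have hne : X * E * Q ^ 2 ≠ 0 := by positivity
  by_cases hnX : n < X
  · obtain ⟨S, h1, h2, h3⟩ := hrep n hnX
    refine ⟨S, ?_, h2, by omega⟩
    intro d hd
    have := Nat.mem_divisors.mp (h1 hd)
    refine Nat.mem_divisors.mpr ⟨this.1.trans ⟨E, by ring⟩, hne⟩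
  · push Not at hnX
    obtain ⟨s, hs1, hs2, hs3, hs4⟩ := digit n
    set σ := ∑ d ∈ s, d with hσ
    have hσn : σ ≤ n := hs3.trans hnX
    have hdvd : E ∣ n - σ := by
      rw [← ZMod.natCast_eq_zero_iff, Nat.cast_sub hσn, hs4, sub_self]
    obtain ⟨n', hn'⟩ := hdvd
    have hn'lt : n' < X := by
      have : E * n' < X * E := by
        have : n - σ ≤ n := Nat.sub_le _ _
        rw [← hn']
        omega
      rw [mul_comm] at this
      exact lt_of_mul_lt_mul_right this (Nat.zero_le _)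
    obtain ⟨S, h1, h2, h3⟩ := hrep n' hn'lt
    refine ⟨s ∪ S.image (fun d => d * E), ?_, ?_, ?_⟩
    · intro d hd
      rcases Finset.mem_union.mp hd with hd | hd
      · exact Nat.mem_divisors.mpr ⟨(hs2 d hd).1.trans ⟨E, by ring⟩, hne⟩
      · obtain ⟨d', hd', rfl⟩ := Finset.mem_image.mp hd
        have := Nat.mem_divisors.mp (h1 hd')
        refine Nat.mem_divisors.mpr ⟨?_, hne⟩
        obtain ⟨w, hw⟩ := this.1
        exact ⟨w, by rw [mul_right_comm, hw]; ring⟩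
    · have hdisj : Disjoint s (S.image (fun d => d * E)) := by
        rw [Finset.disjoint_left]
        intro d hd hd2
        obtain ⟨d', _, rfl⟩ := Finset.mem_image.mp hd2
        exact (hs2 _ hd).2 (Dvd.intro_left d' rfl)
      rw [Finset.sum_union hdisj, Finset.sum_image]
      · rw [← Finset.sum_mul, h2]
        have : n = σ + (n - σ) := by omega
        rw [hn'] at this
        rw [this]
        ring
      · intro a _ b _ hab
        exact Nat.eq_of_mul_eq_mul_right hE0 hab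
    · refine (Finset.card_union_le _ _).trans ?_
      have : #(S.image (fun d => d * E)) ≤ #S := Finset.card_image_le
      omega

lemma digits_rb (D : Finset ℕ) (Q E X Y : ℕ) (hQodd : Odd Q) (hD : ∀ a ∈ D, a ∣ Q)
    (hYa : ∀ a ∈ D, a ≤ Y) (hcop : Nat.Coprime Q E) (hEodd : Odd E) (hE : 1 < E)
    (hX8 : 8 ∣ X) (hXpos : 0 < X) (hXY : 16 * Y ^ 2 ≤ X)
    (cov : ∀ c : ℕ, ∃ a0 ∈ D, ∃ b0 ∈ D, ∃ a1 ∈ D, ∃ b1 ∈ D, ∃ a2 ∈ D, ∃ b2 ∈ D, ∃ a3 ∈ D, ∃ b3 ∈ D,
        ((a0 * b0 + 2 * (a1 * b1) + 4 * (a2 * b2) + 8 * (a3 * b3) : ℕ) : ZMod E) = (c : ZMod E)) :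
    ∀ c : ℕ, ∃ s : Finset ℕ, #s ≤ 4 ∧ (∀ d ∈ s, d ∣ X * Q ^ 2 ∧ ¬ E ∣ d) ∧ ∑ d ∈ s, d ≤ X ∧
      ((∑ d ∈ s, d : ℕ) : ZMod E) = (c : ZMod E) := by
  intro c
  obtain ⟨a0, ha0, b0, hb0, a1, ha1, b1, hb1, a2, ha2, b2, hb2, a3, ha3, b3, hb3, heq⟩ := cov c
  have hodd : ∀ a b, a ∈ D → b ∈ D → Odd (a * b) := fun a b ha hb =>
    (odd_of_dvd_odd (hD a ha) hQodd).mul (odd_of_dvd_odd (hD b hb) hQodd)
  obtain ⟨hcard, hsum⟩ := four_digits (a0 * b0) (a1 * b1) (a2 * b2) (a3 * b3)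
    (hodd _ _ ha0 hb0) (hodd _ _ ha1 hb1) (hodd _ _ ha2 hb2) (hodd _ _ ha3 hb3)
  have hprod : ∀ a b, a ∈ D → b ∈ D → a * b ∣ Q ^ 2 := fun a b ha hb => by
    rw [sq]; exact Nat.mul_dvd_mul (hD a ha) (hD b hb)
  have hle : ∀ a b, a ∈ D → b ∈ D → a * b ≤ Y ^ 2 := fun a b ha hb => by
    rw [sq]; exact Nat.mul_le_mul (hYa a ha) (hYa b hb)
  have hEcop2 : Nat.Coprime E 2 := Nat.coprime_two_right.mpr hEodd
  have hpowdvd : ∀ i, i ≤ 3 → ∀ x, x ∣ Q ^ 2 → 2 ^ i * x ∣ X * Q ^ 2 := by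
    intro i hi x hx
    refine Nat.mul_dvd_mul ((pow_dvd_pow 2 hi).trans ?_) hx
    simpa using hX8
  have hnotdvd : ∀ i, ∀ a b, a ∈ D → b ∈ D → ¬ E ∣ 2 ^ i * (a * b) := by
    intro i a b ha hb hdvd
    have hc1 : Nat.Coprime E (2 ^ i) := Nat.Coprime.pow_right i hEcop2
    have hc2 : Nat.Coprime E a := (hcop.coprime_dvd_left (hD a ha)).symm
    have hc3 : Nat.Coprime E b := (hcop.coprime_dvd_left (hD b hb)).symm
    have : Nat.Coprime E (2 ^ i * (a * b)) := hc1.mul_right (hc2.mul_right hc3)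
    have h1 : E = 1 := Nat.Coprime.eq_one_of_dvd this hdvd
    omega
  refine ⟨{a0 * b0, 2 * (a1 * b1), 4 * (a2 * b2), 8 * (a3 * b3)}, hcard, ?_, ?_, ?_⟩
  · intro d hd
    simp only [Finset.mem_insert, Finset.mem_singleton] at hd
    rcases hd with rfl | rfl | rfl | rfl
    · constructor
      · simpa using hpowdvd 0 (by norm_num) _ (hprod _ _ ha0 hb0)
      · simpa using hnotdvd 0 _ _ ha0 hb0
    · exact ⟨by simpa using hpowdvd 1 (by norm_num) _ (hprod _ _ ha1 hb1),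
        by simpa using hnotdvd 1 _ _ ha1 hb1⟩
    · refine ⟨?_, ?_⟩
      · have := hpowdvd 2 (by norm_num) _ (hprod _ _ ha2 hb2)
        norm_num at this
        exact this
      · have := hnotdvd 2 _ _ ha2 hb2
        norm_num at this
        exact this
    · refine ⟨?_, ?_⟩
      · have := hpowdvd 3 (by norm_num) _ (hprod _ _ ha3 hb3)
        norm_num at this
        exact this
      · have := hnotdvd 3 _ _ ha3 hb3
        norm_num at this
        exact this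
  · rw [hsum]
    have h1 := hle _ _ ha0 hb0
    have h2 := hle _ _ ha1 hb1
    have h3 := hle _ _ ha2 hb2
    have h4 := hle _ _ ha3 hb3
    omega
  · rw [hsum]
    exact heq

end RbBasics

section ProdSet

/-- Products of exactly `m` elements of `B`. -/
noncomputable def prodSet (B : Finset ℕ) (m : ℕ) : Finset ℕ :=
  (B.powersetCard m).image (fun S => ∏ e ∈ S, e)

lemma pow_le_choose_of (j : ℕ) : ∀ r n : ℕ, 2 ^ j * r ≤ n → 2 ^ (j * r) ≤ n.choose r := by
  intro r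
  induction r with
  | zero => intro n _; simp
  | succ r ih =>
    intro n hn
    have hpos : 0 < 2 ^ j := by positivity
    obtain ⟨n', rfl⟩ : ∃ n', n = n' + 1 := by
      refine ⟨n - 1, ?_⟩
      have : 0 < n := lt_of_lt_of_le (Nat.mul_pos hpos (Nat.succ_pos r)) hn
      omega
    have hn' : 2 ^ j * r ≤ n' := by
      have h1 : 2 ^ j * (r + 1) = 2 ^ j * r + 2 ^ j := by ring
      omega
    have h2 := ih n' hn'
    have h3 := Nat.add_one_mul_choose_eq n' r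
    have h4 : (r + 1) * 2 ^ (j * (r + 1)) ≤ (r + 1) * (n' + 1).choose (r + 1) := by
      calc (r + 1) * 2 ^ (j * (r + 1)) = (2 ^ j * (r + 1)) * 2 ^ (j * r) := by
            rw [mul_add, pow_add]; ring
        _ ≤ (n' + 1) * n'.choose r := Nat.mul_le_mul hn h2
        _ = (r + 1) * (n' + 1).choose (r + 1) := by rw [h3]; ring
    exact Nat.le_of_mul_le_mul_left h4 (Nat.succ_pos r)

lemma card_prodSet (B : Finset ℕ) (hB : ∀ e ∈ B, e.Prime) (m : ℕ) :
    #(prodSet B m) = (#B).choose m := by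
  unfold prodSet
  rw [Finset.card_image_of_injOn, Finset.card_powersetCard]
  intro S hS T hT hST
  have hS' : S ⊆ B := (Finset.mem_powersetCard.mp hS).1
  have hT' : T ⊆ B := (Finset.mem_powersetCard.mp hT).1
  have h1 := Nat.primeFactors_prod (fun p hp => hB p (hS' hp))
  have h2 := Nat.primeFactors_prod (fun p hp => hB p (hT' hp))
  rw [← h1, ← h2]
  simp only at hST
  rw [hST]

lemma prodSet_dvd (B : Finset ℕ) (m : ℕ) : ∀ a ∈ prodSet B m, a ∣ ∏ e ∈ B, e := by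
  intro a ha
  obtain ⟨S, hS, rfl⟩ := Finset.mem_image.mp ha
  exact Finset.prod_dvd_prod_of_subset _ _ _ (Finset.mem_powersetCard.mp hS).1

lemma prodSet_le (B : Finset ℕ) (m y : ℕ) (hy : ∀ e ∈ B, e ≤ y) :
    ∀ a ∈ prodSet B m, a ≤ y ^ m := by
  intro a ha
  obtain ⟨S, hS, rfl⟩ := Finset.mem_image.mp ha
  obtain ⟨h1, h2⟩ := Finset.mem_powersetCard.mp hS
  rw [← h2]
  exact Finset.prod_le_pow_card _ _ _ (fun e he => hy e (h1 he))

/-- The number of candidate primes dividing a nonzero difference of two bounded numbers. -/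
lemma cnt_le_of_bound (D : Finset ℕ) (W : ℕ) (hD : ∀ a ∈ D, a ≤ 2 ^ W) (hD0 : ∀ a ∈ D, 0 < a)
    (A : Finset ℕ) (hA : ∀ e ∈ A, e.Prime) (p : ℕ × ℕ) (hp : p ∈ D.offDiag) : cnt A p ≤ W := by
  rw [Finset.mem_offDiag] at hp
  obtain ⟨h1, h2, h3⟩ := hp
  have hd1 := hD _ h1
  have hd2 := hD _ h2
  have h1pos := hD0 _ h1
  have h2pos := hD0 _ h2
  set Δ : ℕ := Int.natAbs ((p.1 : ℤ) - (p.2 : ℤ)) with hΔ
  have hΔpos : 0 < Δ := by
    rw [hΔ, Int.natAbs_pos, sub_ne_zero]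
    exact_mod_cast h3
  have hΔle : Δ ≤ 2 ^ W := by omega
  unfold cnt
  set T := A.filter (fun e : ℕ => (e : ℤ) ∣ (p.1 : ℤ) - (p.2 : ℤ)) with hT
  have hTprimes : ∀ e ∈ T, e.Prime := fun e he => hA e (Finset.mem_filter.mp he).1
  have hdvd : ∏ e ∈ T, e ∣ Δ := by
    apply Finset.prod_primes_dvd
    · intro e he
      exact (hTprimes e he).prime
    · intro e he
      have := (Finset.mem_filter.mp he).2
      exact Int.natCast_dvd.mp this
  have hle : 2 ^ #T ≤ ∏ e ∈ T, e := by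
    apply Finset.pow_card_le_prod
    intro e he
    exact (hTprimes e he).two_le
  have h5 : 2 ^ #T ≤ 2 ^ W := hle.trans ((Nat.le_of_dvd hΔpos hdvd).trans hΔle)
  exact (Nat.pow_le_pow_iff_right (by norm_num)).mp h5

end ProdSet


section RefStage

theorem rb_stage (K : ℕ) (hK : 12 ≤ K) (A B : Finset ℕ)
    (hA : ∀ e ∈ A, e.Prime ∧ e ≠ 2 ∧ 2 ^ (10 * K) ≤ e ∧ e ≤ 2 ^ (20 * K))
    (hB : ∀ e ∈ B, e.Prime ∧ e ≠ 2 ∧ e ≤ 2 ^ (20 * K))
    (hdisj : Disjoint A B) (hcardB : #B = 2 ^ K)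
    (hcardA : 2 ^ (18 * K + 1) + 2 ^ K ≤ #A)
    (m j t : ℕ) (hmj : 2 ^ j * m ≤ 2 ^ K) (ht : 1 ≤ t) (htj : t * (20 * K) ≤ j * m)
    (X h : ℕ) (hX8 : 8 ∣ X) (hXY : 2 ^ (40 * K * m + 4) ≤ X)
    (hrep : Rb (∏ e ∈ B, e) X h) :
    ∃ E, 2 ^ (10 * K * t) ≤ E ∧ Rb (∏ e ∈ B, e) (X * E) (h + 4) := by
  set Q := ∏ e ∈ B, e with hQ
  have hBprimes : ∀ e ∈ B, e.Prime := fun e he => (hB e he).1
  have hKpos : 0 < K := by omega
  have hQpos : 0 < Q := Finset.prod_pos fun e he => (hBprimes e he).pos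
  have hQodd : Odd Q := prod_primes_odd B (fun e he => ⟨(hB e he).1, (hB e he).2.1⟩)
  set D := prodSet B m with hD
  have hDcard : 2 ^ (j * m) ≤ #D := by
    rw [hD, card_prodSet B hBprimes, hcardB]
    exact pow_le_choose_of j m _ hmj
  have hDle : ∀ a ∈ D, a ≤ 2 ^ (20 * K * m) := by
    intro a ha
    have := prodSet_le B m (2 ^ (20 * K)) (fun e he => (hB e he).2.2) a ha
    rwa [← pow_mul] at this
  have hDpos : ∀ a ∈ D, 0 < a := fun a ha => Nat.pos_of_dvd_of_pos (prodSet_dvd B m a ha) hQpos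
  set y : ℕ := 2 ^ (4 * K) with hy
  have hy5 : y ^ 5 = 2 ^ (20 * K) := by
    rw [hy, ← pow_mul]
    congr 1
    ring
  have hy4 : y ^ 4 = 2 ^ (16 * K) := by
    rw [hy, ← pow_mul]
    congr 1
    ring
  set W := 20 * K * m with hW
  set v := 2 * t * y ^ 4 * W with hv
  have h2j : 2 ^ j * m ≥ j * m := Nat.mul_le_mul_right _ Nat.lt_two_pow_self.le
  have hjm : j * m ≤ 2 ^ K := h2j.trans hmj
  have hm1 : 1 ≤ m := by
    by_contra h0
    have h00 : m = 0 := by omega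
    rw [h00] at htj
    have : 0 < t * (20 * K) := by positivity
    omega
  have hmle : m ≤ 2 ^ K := by
    refine le_trans ?_ hmj
    exact Nat.le_mul_of_pos_left _ (by positivity)
  have htle : t ≤ 2 ^ K := by
    refine le_trans ?_ (htj.trans hjm)
    exact Nat.le_mul_of_pos_right _ (by omega)
  have htW : t * W ≤ 2 ^ K * 2 ^ K := by
    calc t * W = (t * (20 * K)) * m := by rw [hW]; ring
      _ ≤ (j * m) * m := Nat.mul_le_mul_right _ htj
      _ ≤ 2 ^ K * 2 ^ K := Nat.mul_le_mul hjm hmle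
  have hvle : v ≤ 2 ^ (18 * K + 1) := by
    calc v = 2 * y ^ 4 * (t * W) := by rw [hv]; ring
      _ ≤ 2 * y ^ 4 * (2 ^ K * 2 ^ K) := Nat.mul_le_mul_left _ htW
      _ = 2 ^ (18 * K + 1) := by
        rw [hy4, ← pow_add, ← pow_succ', ← pow_add]
        congr 1
        ring
  have hvpos : 0 < v := by
    rw [hv, hW]
    have : 0 < 2 * t * y ^ 4 := by positivity
    exact Nat.mul_pos this (Nat.mul_pos (by omega) hm1)
  have h20t : 2 ^ (20 * K * t) ≤ #D := by
    refine le_trans (Nat.pow_le_pow_right (by norm_num) ?_) hDcard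
    rw [show 20 * K * t = t * (20 * K) by ring]
    exact htj
  have hAprimes : ∀ e ∈ A, e.Prime := fun e he => (hA e he).1
  have hcov := coverage D A y W v t (by positivity)
    (fun e he => ⟨(hA e he).1, (hA e he).2.1⟩)
    (fun e he => by rw [hy5]; exact (hA e he).2.2.2)
    (fun p hp => cnt_le_of_bound D W hDle hDpos A hAprimes p hp)
    hvpos
    (by omega)
    le_rfl
    (by
      refine le_trans (Nat.pow_le_pow_right (by norm_num) ?_) h20t
      have : 240 * t ≤ 20 * K * t := Nat.mul_le_mul_right _ (by omega)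
      omega)
    (by
      rw [hy5, ← pow_mul]
      exact h20t)
    (by
      rw [hy]
      calc 1024 * t ≤ 2 ^ 10 * 2 ^ K := by
            rw [show (1024 : ℕ) = 2 ^ 10 by norm_num]
            exact Nat.mul_le_mul_left _ htle
        _ = 2 ^ (10 + K) := by rw [pow_add]
        _ ≤ 2 ^ (4 * K) := Nat.pow_le_pow_right (by norm_num) (by omega))
  obtain ⟨P, hPA, hPcard, hPcov⟩ := hcov
  set E : ℕ := ∏ e ∈ P, e with hE
  have hEge : 2 ^ (10 * K * t) ≤ E := by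
    have := Finset.pow_card_le_prod P (fun e => e) (2 ^ (10 * K))
      (fun e he => (hA e (hPA he)).2.2.1)
    rw [hPcard, ← pow_mul] at this
    exact this
  have hE1 : 1 < E := by
    refine lt_of_lt_of_le ?_ hEge
    apply Nat.one_lt_two_pow
    have : 0 < 10 * K * t := by positivity
    omega
  have hEodd : Odd E := prod_primes_odd P (fun e he => ⟨(hA e (hPA he)).1, (hA e (hPA he)).2.1⟩)
  have hcop : Nat.Coprime Q E := by
    apply Nat.Coprime.prod_left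
    intro x hx
    apply Nat.Coprime.prod_right
    intro z hz
    exact (Nat.coprime_primes (hBprimes x hx) (hA z (hPA hz)).1).mpr
      (fun h => Finset.disjoint_left.mp hdisj (hPA hz) (h ▸ hx))
  have hXpos : 0 < X := lt_of_lt_of_le (by positivity) hXY
  refine ⟨E, hEge, ?_⟩
  refine rb_step Q X E h hQpos hXpos hE1 ?_ hrep
  refine digits_rb D Q E X (2 ^ (20 * K * m)) hQodd (prodSet_dvd B m) hDle hcop hEodd hE1
    hX8 hXpos ?_ hPcov
  have : 16 * (2 ^ (20 * K * m)) ^ 2 = 2 ^ (40 * K * m + 4) := by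
    rw [← pow_mul, pow_add]
    have : 20 * K * m * 2 = 40 * K * m := by ring
    rw [this]
    norm_num
    ring
  rw [this]
  exact hXY

theorem rb_block (K : ℕ) (hK : 12 ≤ K) (A B : Finset ℕ)
    (hA : ∀ e ∈ A, e.Prime ∧ e ≠ 2 ∧ 2 ^ (10 * K) ≤ e ∧ e ≤ 2 ^ (20 * K))
    (hB : ∀ e ∈ B, e.Prime ∧ e ≠ 2 ∧ e ≤ 2 ^ (20 * K))
    (hdisj : Disjoint A B) (hcardB : #B = 2 ^ K)
    (hcardA : 2 ^ (18 * K + 1) + 2 ^ K ≤ #A)
    (m j t : ℕ) (hmj : 2 ^ j * m ≤ 2 ^ K) (ht : 1 ≤ t) (htj : t * (20 * K) ≤ j * m)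
    (X h : ℕ) (hX8 : 8 ∣ X) (hXY : 2 ^ (40 * K * m + 4) ≤ X)
    (hrep : Rb (∏ e ∈ B, e) X h) (s : ℕ) :
    ∃ X', 2 ^ (10 * K * t * s) * X ≤ X' ∧ 8 ∣ X' ∧ Rb (∏ e ∈ B, e) X' (h + 4 * s) := by
  induction s with
  | zero => exact ⟨X, by simp, hX8, by simpa using hrep⟩
  | succ s ih =>
    obtain ⟨X', h1, h2, h3⟩ := ih
    have hX'Y : 2 ^ (40 * K * m + 4) ≤ X' :=
      hXY.trans ((Nat.le_mul_of_pos_left _ (by positivity)).trans h1)
    obtain ⟨E, hE1, hE2⟩ := rb_stage K hK A B hA hB hdisj hcardB hcardA m j t hmj ht htj X' _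
      h2 hX'Y h3
    refine ⟨X' * E, ?_, h2.mul_right E, ?_⟩
    · calc 2 ^ (10 * K * t * (s + 1)) * X
          = 2 ^ (10 * K * t) * (2 ^ (10 * K * t * s) * X) := by
            rw [mul_add, pow_add]; ring
        _ ≤ E * X' := Nat.mul_le_mul hE1 h1
        _ = X' * E := mul_comm _ _
    · have : h + 4 * (s + 1) = h + 4 * s + 4 := by ring
      rw [this]
      exact hE2

lemma eighty_le_pow (i : ℕ) (hi : 10 ≤ i) : 80 * i ≤ 2 ^ i := by
  induction i, hi using Nat.le_induction with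
  | base => norm_num
  | succ i hi ih =>
    rw [pow_succ]
    omega

lemma jm_lemma (j i : ℕ) (hj : 1 ≤ j) (hi : 7 ≤ i) (hij : 20 ≤ i + j) :
    40 * (i + j) ≤ j * 2 ^ i := by
  by_cases h : i ≤ j
  · have h1 : 2 ^ 7 ≤ 2 ^ i := Nat.pow_le_pow_right (by norm_num) hi
    have h2 : j * 2 ^ 7 ≤ j * 2 ^ i := Nat.mul_le_mul_left _ h1
    omega
  · push Not at h
    have h1 : 10 ≤ i := by omega
    have h2 := eighty_le_pow i h1
    have h3 : 1 * 2 ^ i ≤ j * 2 ^ i := Nat.mul_le_mul_right _ hj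
    omega

/-- The cost of the doubling blocks. -/
def sumJ (K l : ℕ) : ℕ := ∑ i ∈ Finset.range l, (160 * K / (K - 7 - i) + 1)

theorem chain (K : ℕ) (hK : 20 ≤ K) (A B : Finset ℕ)
    (hA : ∀ e ∈ A, e.Prime ∧ e ≠ 2 ∧ 2 ^ (10 * K) ≤ e ∧ e ≤ 2 ^ (20 * K))
    (hB : ∀ e ∈ B, e.Prime ∧ e ≠ 2 ∧ e ≤ 2 ^ (20 * K))
    (hdisj : Disjoint A B) (hcardB : #B = 2 ^ K)
    (hcardA : 2 ^ (18 * K + 1) + 2 ^ K ≤ #A) (l : ℕ) (hl : l ≤ K - 7) :
    ∃ X, 2 ^ (40 * K * 2 ^ (7 + l) + 4) ≤ X ∧ 8 ∣ X ∧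
      Rb (∏ e ∈ B, e) X (5120 * K + 4 + 4 * sumJ K l) := by
  have hBprimes : ∀ e ∈ B, e.Prime := fun e he => (hB e he).1
  have hQpos : 0 < ∏ e ∈ B, e := Finset.prod_pos fun e he => (hBprimes e he).pos
  have hKpos : 0 < K := by omega
  induction l with
  | zero =>
    refine ⟨2 ^ (5120 * K + 4), ?_, ?_, ?_⟩
    · apply Nat.pow_le_pow_right (by norm_num)
      norm_num
      omega
    · exact (by norm_num : (8 : ℕ) = 2 ^ 3) ▸ pow_dvd_pow 2 (by omega)
    · simpa [sumJ] using rb_base _ (5120 * K + 4) hQpos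
  | succ l ih =>
    obtain ⟨X, h1, h2, h3⟩ := ih (by omega)
    obtain ⟨j, hj⟩ : ∃ j, j + (7 + l) = K := ⟨K - 7 - l - 0, by omega⟩
    have hjK : K - 7 - l = j := by omega
    obtain ⟨m, hm⟩ : ∃ m, m = 2 ^ (7 + l) := ⟨_, rfl⟩
    rw [← hm] at h1
    have hj1 : 1 ≤ j := by omega
    have hij : 7 + l + j = K := by omega
    have hjm := jm_lemma j (7 + l) hj1 (by omega) (by omega)
    rw [hij, ← hm] at hjm
    set t := j * m / (20 * K) with ht
    set s := 160 * K / j + 1 with hs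
    have hmj : 2 ^ j * m ≤ 2 ^ K := by
      rw [hm, ← pow_add]
      exact Nat.pow_le_pow_right (by norm_num) (by omega)
    have h20K : 0 < 20 * K := by omega
    have htj : t * (20 * K) ≤ j * m := Nat.div_mul_le_self _ _
    have ht2 : 2 ≤ t := by
      rw [ht]
      rw [Nat.le_div_iff_mul_le h20K]
      omega
    have hlt : j * m < 40 * K * t := by
      have h5 : j * m < (t + 1) * (20 * K) := by
        have := Nat.lt_mul_div_succ (j * m) h20K
        rw [mul_comm (t + 1)]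
        exact this
      have h6 : (t + 1) * (20 * K) ≤ t * (40 * K) := by nlinarith
      nlinarith
    have hsj : 160 * K ≤ s * j := by
      have := Nat.div_add_mod (160 * K) j
      have h7 : 160 * K % j < j := Nat.mod_lt _ hj1
      rw [hs]
      nlinarith
    have hts : 4 * m ≤ t * s := by
      have h8 : (40 * K * j) * (4 * m) ≤ (40 * K * j) * (t * s) := by
        calc (40 * K * j) * (4 * m) = (j * m) * (160 * K) := by ring
          _ ≤ (40 * K * t) * (s * j) := Nat.mul_le_mul hlt.le hsj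
          _ = (40 * K * j) * (t * s) := by ring
      exact Nat.le_of_mul_le_mul_left h8 (by positivity)
    have hXm : 2 ^ (40 * K * m + 4) ≤ X := h1
    obtain ⟨X', h4, h5, h6⟩ := rb_block K (by omega) A B hA hB hdisj hcardB hcardA m j t hmj
      (by omega) htj X _ h2 hXm h3 s
    refine ⟨X', ?_, h5, ?_⟩
    · refine le_trans ?_ h4
      have h9 : 40 * K * m ≤ 10 * K * t * s := by
        calc 40 * K * m = 10 * K * (4 * m) := by ring
          _ ≤ 10 * K * (t * s) := Nat.mul_le_mul_left _ hts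
          _ = 10 * K * t * s := by ring
      calc 2 ^ (40 * K * 2 ^ (7 + (l + 1)) + 4)
          = 2 ^ (40 * K * m) * 2 ^ (40 * K * m + 4) := by
            rw [← pow_add]
            congr 1
            rw [hm, show 7 + (l + 1) = (7 + l) + 1 by ring, pow_succ]
            ring
        _ ≤ 2 ^ (10 * K * t * s) * X :=
            Nat.mul_le_mul (Nat.pow_le_pow_right (by norm_num) h9) hXm
    · have : sumJ K (l + 1) = sumJ K l + s := by
        simp [sumJ, Finset.sum_range_succ, hs, hjK]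
      rw [this]
      have h7 : 5120 * K + 4 + 4 * (sumJ K l + s) = 5120 * K + 4 + 4 * sumJ K l + 4 * s := by ring
      rw [h7]
      exact h6

/-- The total cost of the representation. -/
def hstar (K : ℕ) : ℕ := 5120 * K + 4 + 4 * sumJ K (K - 7) + 4 * (320 * K + 16)

theorem final_rb (K : ℕ) (hK : 20 ≤ K) (A B : Finset ℕ)
    (hA : ∀ e ∈ A, e.Prime ∧ e ≠ 2 ∧ 2 ^ (10 * K) ≤ e ∧ e ≤ 2 ^ (20 * K))
    (hB : ∀ e ∈ B, e.Prime ∧ e ≠ 2 ∧ e ≤ 2 ^ (20 * K))
    (hdisj : Disjoint A B) (hcardB : #B = 2 ^ K)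
    (hcardA : 2 ^ (18 * K + 1) + 2 ^ K ≤ #A) :
    ∃ X, 2 ^ ((80 * K + 2) * 2 ^ K + 4) ≤ X ∧ Rb (∏ e ∈ B, e) X (hstar K) := by
  obtain ⟨X, h1, h2, h3⟩ := chain K hK A B hA hB hdisj hcardB hcardA (K - 7) le_rfl
  have hK7 : 7 + (K - 7) = K := by omega
  rw [hK7] at h1
  set m := 2 ^ (K - 1) with hm
  have hm2 : 2 * m = 2 ^ K := by
    rw [hm, ← pow_succ']
    congr 1
    omega
  have hmj : 2 ^ 1 * m ≤ 2 ^ K := by rw [pow_one, hm2]
  have hjm := jm_lemma 1 (K - 1) le_rfl (by omega) (by omega)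
  rw [show K - 1 + 1 = K by omega, one_mul, ← hm] at hjm
  set t := 1 * m / (20 * K) with ht
  have h20K : 0 < 20 * K := by omega
  have htj : t * (20 * K) ≤ 1 * m := Nat.div_mul_le_self _ _
  have ht2 : 2 ≤ t := by
    rw [ht, Nat.le_div_iff_mul_le h20K]
    omega
  have hlt : m ≤ 40 * K * t := by
    have h5 : 1 * m < (t + 1) * (20 * K) := by
      have := Nat.lt_mul_div_succ (1 * m) h20K
      rw [mul_comm (t + 1)]
      exact this
    have h6 : (t + 1) * (20 * K) ≤ t * (40 * K) := by nlinarith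
    nlinarith
  have hXm : 2 ^ (40 * K * m + 4) ≤ X := by
    refine le_trans (Nat.pow_le_pow_right (by norm_num) ?_) h1
    have : m ≤ 2 ^ K := by omega
    have := Nat.mul_le_mul_left (40 * K) this
    omega
  obtain ⟨X', h4, _, h6⟩ := rb_block K (by omega) A B hA hB hdisj hcardB hcardA m 1 t hmj
    (by omega) htj X _ h2 hXm h3 (320 * K + 16)
  refine ⟨X', ?_, ?_⟩
  · refine le_trans ?_ h4
    have h9 : (40 * K + 2) * 2 ^ K ≤ 10 * K * t * (320 * K + 16) := by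
      have h10 : 4 * ((40 * K + 2) * 2 ^ K) ≤ 4 * (10 * K * t * (320 * K + 16)) := by
        calc 4 * ((40 * K + 2) * 2 ^ K) = m * (320 * K + 16) := by
              rw [← hm2]; ring
          _ ≤ (40 * K * t) * (320 * K + 16) := Nat.mul_le_mul_right _ hlt
          _ = 4 * (10 * K * t * (320 * K + 16)) := by ring
      omega
    calc 2 ^ ((80 * K + 2) * 2 ^ K + 4)
        = 2 ^ ((40 * K + 2) * 2 ^ K) * 2 ^ (40 * K * 2 ^ K + 4) := by
          rw [← pow_add]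
          congr 1
          ring
      _ ≤ 2 ^ (10 * K * t * (320 * K + 16)) * X :=
          Nat.mul_le_mul (Nat.pow_le_pow_right (by norm_num) h9) h1
  · unfold hstar
    exact h6

end RefStage


end Vale.Agent.Lib.P012
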