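import Vale.Agent.Lib.P012.Coverage

namespace Vale.Agent.Lib.P012

open Finset

section Digits

lemma four_digits (x0 x1 x2 x3 : ℕ) (h0 : Odd x0) (h1 : Odd x1) (h2 : Odd x2) (h3 : Odd x3) :
    #({x0, 2 * x1, 4 * x2, 8 * x3} : Finset ℕ) ≤ 4 ∧
      ∑ d ∈ ({x0, 2 * x1, 4 * x2, 8 * x3} : Finset ℕ), d = x0 + 2 * x1 + 4 * x2 + 8 * x3 := by
  obtain ⟨k0, rfl⟩ := h0
  obtain ⟨k1, rfl⟩ := h1
  obtain ⟨k2, rfl⟩ := h2
  obtain ⟨k3, rfl⟩ := h3
  constructor
  · exact Finset.card_le_four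
  · rw [Finset.sum_insert, Finset.sum_insert, Finset.sum_insert, Finset.sum_singleton]
    · ring
    · simp only [Finset.mem_singleton]; omega
    · simp only [Finset.mem_insert, Finset.mem_singleton]; omega
    · simp only [Finset.mem_insert, Finset.mem_singleton]; omega

lemma odd_of_dvd_odd {a Q : ℕ} (h : a ∣ Q) (hQ : Odd Q) : Odd a := Odd.of_dvd_nat hQ h

/-- From a covering by products of divisors of `Q` to the digit sets used in `rep_step`. -/
lemma digits_ok (Q k E M : ℕ) (hk : 4 ≤ k) (hQpos : 0 < Q) (hQodd : Odd Q) (hcop : Nat.Coprime Q E)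
    (hEodd : Odd E) (hE : 1 < E) (hMpos : 0 < M) (hM : 2 ^ k * Q ^ 2 ∣ M)
    (cov : ∀ c : ℕ, ∃ a0 ∈ Q.divisors, ∃ b0 ∈ Q.divisors, ∃ a1 ∈ Q.divisors, ∃ b1 ∈ Q.divisors,
      ∃ a2 ∈ Q.divisors, ∃ b2 ∈ Q.divisors, ∃ a3 ∈ Q.divisors, ∃ b3 ∈ Q.divisors,
        ((a0 * b0 + 2 * (a1 * b1) + 4 * (a2 * b2) + 8 * (a3 * b3) : ℕ) : ZMod E) = (c : ZMod E)) :
    ∀ c : ℕ, ∃ s : Finset ℕ, #s ≤ 4 ∧ (∀ d ∈ s, d ∣ M ∧ ¬ E ∣ d) ∧ ∑ d ∈ s, d ≤ M ∧
      ((∑ d ∈ s, d : ℕ) : ZMod E) = (c : ZMod E) := by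
  intro c
  obtain ⟨a0, ha0, b0, hb0, a1, ha1, b1, hb1, a2, ha2, b2, hb2, a3, ha3, b3, hb3, heq⟩ := cov c
  have hdiv : ∀ a ∈ Q.divisors, a ∣ Q := fun a ha => (Nat.mem_divisors.mp ha).1
  have hodd : ∀ a b, a ∈ Q.divisors → b ∈ Q.divisors → Odd (a * b) := fun a b ha hb =>
    (odd_of_dvd_odd (hdiv a ha) hQodd).mul (odd_of_dvd_odd (hdiv b hb) hQodd)
  obtain ⟨hcard, hsum⟩ := four_digits (a0 * b0) (a1 * b1) (a2 * b2) (a3 * b3)
    (hodd _ _ ha0 hb0) (hodd _ _ ha1 hb1) (hodd _ _ ha2 hb2) (hodd _ _ ha3 hb3)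
  have hprod : ∀ a b, a ∈ Q.divisors → b ∈ Q.divisors → a * b ∣ Q ^ 2 := fun a b ha hb => by
    rw [sq]; exact Nat.mul_dvd_mul (hdiv a ha) (hdiv b hb)
  have hle : ∀ a b, a ∈ Q.divisors → b ∈ Q.divisors → a * b ≤ Q ^ 2 := fun a b ha hb =>
    Nat.le_of_dvd (by positivity) (hprod a b ha hb)
  have hEcop2 : Nat.Coprime E 2 := by
    exact Nat.coprime_two_right.mpr hEodd
  have hpowdvd : ∀ i, i ≤ 3 → ∀ x, x ∣ Q ^ 2 → 2 ^ i * x ∣ M := by
    intro i hi x hx
    refine dvd_trans (Nat.mul_dvd_mul (pow_dvd_pow 2 (by omega : i ≤ k)) hx) hM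
  have hnotdvd : ∀ i, ∀ a b, a ∈ Q.divisors → b ∈ Q.divisors → ¬ E ∣ 2 ^ i * (a * b) := by
    intro i a b ha hb hdvd
    have hc1 : Nat.Coprime E (2 ^ i) := Nat.Coprime.pow_right i hEcop2
    have hc2 : Nat.Coprime E a := (hcop.coprime_dvd_left (hdiv a ha)).symm
    have hc3 : Nat.Coprime E b := (hcop.coprime_dvd_left (hdiv b hb)).symm
    have : Nat.Coprime E (2 ^ i * (a * b)) := hc1.mul_right (hc2.mul_right hc3)
    have h1 : E = 1 := Nat.Coprime.eq_one_of_dvd this hdvd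
    omega
  refine ⟨{a0 * b0, 2 * (a1 * b1), 4 * (a2 * b2), 8 * (a3 * b3)}, hcard, ?_, ?_, ?_⟩
  · intro d hd
    simp only [Finset.mem_insert, Finset.mem_singleton] at hd
    rcases hd with rfl | rfl | rfl | rfl
    · constructor
      · simpa using hpowdvd 0 (by norm_num) _ (hprod _ _ ha0 hb0)
      · simpa using hnotdvd 0 _ _ ha0 hb0
    · exact ⟨by simpa using hpowdvd 1 (by norm_num) _ (hprod _ _ ha1 hb1),
        by simpa using hnotdvd 1 _ _ ha1 hb1⟩
    · refine ⟨?_, ?_⟩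
      · have := hpowdvd 2 (by norm_num) _ (hprod _ _ ha2 hb2)
        norm_num at this
        exact this
      · have := hnotdvd 2 _ _ ha2 hb2
        norm_num at this
        exact this
    · refine ⟨?_, ?_⟩
      · have := hpowdvd 3 (by norm_num) _ (hprod _ _ ha3 hb3)
        norm_num at this
        exact this
      · have := hnotdvd 3 _ _ ha3 hb3
        norm_num at this
        exact this
  · rw [hsum]
    have h1 := hle _ _ ha0 hb0
    have h2 := hle _ _ ha1 hb1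
    have h3 := hle _ _ ha2 hb2
    have h4 := hle _ _ ha3 hb3
    have h5 : 2 ^ k * Q ^ 2 ≤ M := Nat.le_of_dvd hMpos hM
    have h6 : 16 * Q ^ 2 ≤ 2 ^ k * Q ^ 2 := by
      apply Nat.mul_le_mul_right
      calc 16 = 2 ^ 4 := by norm_num
        _ ≤ 2 ^ k := Nat.pow_le_pow_right (by norm_num) hk
    omega
  · rw [hsum]
    exact heq

end Digits

section Primes

lemma prod_primes_odd (P : Finset ℕ) (hP : ∀ e ∈ P, e.Prime ∧ e ≠ 2) : Odd (∏ e ∈ P, e) :=
  Finset.prod_induction _ Odd (fun _ _ => Odd.mul) odd_one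
    fun e he => (hP e he).1.odd_of_ne_two (hP e he).2

lemma card_divisors_prod (P : Finset ℕ) (hP : ∀ e ∈ P, e.Prime) :
    #(∏ e ∈ P, e).divisors = 2 ^ #P := by
  induction P using Finset.induction_on with
  | empty => simp
  | insert e P he ih =>
    have hPrimes : ∀ x ∈ P, x.Prime := fun x hx => hP x (Finset.mem_insert_of_mem hx)
    have hprime : e.Prime := hP e (Finset.mem_insert_self e P)
    rw [Finset.prod_insert he, Finset.card_insert_of_notMem he]
    have hcop : Nat.Coprime e (∏ x ∈ P, x) := by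
      apply Nat.Coprime.prod_right
      intro x hx
      exact (Nat.coprime_primes hprime (hPrimes x hx)).mpr (fun h => he (h ▸ hx))
    rw [hcop.card_divisors_mul, ih hPrimes, hprime.divisors,
      Finset.card_pair hprime.one_lt.ne, pow_succ, mul_comm]

/-- The number of candidate primes dividing a nonzero difference of two divisors of `Q` is small. -/
lemma cnt_le_of_divisors (Q W : ℕ) (hQ : Q ≤ 2 ^ W) (A : Finset ℕ) (hA : ∀ e ∈ A, e.Prime)
    (p : ℕ × ℕ) (hp : p ∈ Q.divisors.offDiag) : cnt A p ≤ W := by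
  rw [Finset.mem_offDiag] at hp
  obtain ⟨h1, h2, h3⟩ := hp
  have hQ0 : Q ≠ 0 := (Nat.mem_divisors.mp h1).2
  have hd1 := Nat.divisor_le h1
  have hd2 := Nat.divisor_le h2
  set Δ : ℕ := Int.natAbs ((p.1 : ℤ) - (p.2 : ℤ)) with hΔ
  have hΔpos : 0 < Δ := by
    rw [hΔ, Int.natAbs_pos, sub_ne_zero]
    exact_mod_cast h3
  have hΔle : Δ ≤ Q := by
    have h1pos : 0 < p.1 := Nat.pos_of_mem_divisors h1
    have h2pos : 0 < p.2 := Nat.pos_of_mem_divisors h2
    omega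
  unfold cnt
  set T := A.filter (fun e : ℕ => (e : ℤ) ∣ (p.1 : ℤ) - (p.2 : ℤ)) with hT
  have hTprimes : ∀ e ∈ T, e.Prime := fun e he => hA e (Finset.mem_filter.mp he).1
  have hdvd : ∏ e ∈ T, e ∣ Δ := by
    apply Finset.prod_primes_dvd
    · intro e he
      exact (hTprimes e he).prime
    · intro e he
      have := (Finset.mem_filter.mp he).2
      exact Int.natCast_dvd.mp this
  have hle : 2 ^ #T ≤ ∏ e ∈ T, e := by
    apply Finset.pow_card_le_prod
    intro e he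
    exact (hTprimes e he).two_le
  have h5 : 2 ^ #T ≤ 2 ^ W :=
    hle.trans ((Nat.le_of_dvd hΔpos hdvd).trans (hΔle.trans hQ))
  exact (Nat.pow_le_pow_iff_right (by norm_num)).mp h5

end Primes

section StageThm

/-- The state of the construction. -/
def State (A : Finset ℕ) (ω h : ℕ) : Prop :=
  ∃ P ⊆ A, #P = ω ∧ ∃ k, 4 ≤ k ∧ Rep (2 ^ k * (∏ e ∈ P, e) ^ 2) h

lemma State.mono {A : Finset ℕ} {ω h h' : ℕ} (hS : State A ω h) (hh : h ≤ h') : State A ω h' := by
  obtain ⟨P, h1, h2, k, h3, h4⟩ := hS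
  exact ⟨P, h1, h2, k, h3, h4.mono hh⟩

theorem stage (K : ℕ) (hK : 12 ≤ K) (A : Finset ℕ)
    (hA : ∀ e ∈ A, e.Prime ∧ e ≠ 2 ∧ e ≤ 2 ^ (20 * K))
    (hcardA : 2 ^ (18 * K + 1) + 2 ^ (K + 1) ≤ #A) (ω h : ℕ) (hω1 : 20 * K ≤ ω) (hω2 : ω < 2 ^ K)
    (hS : State A ω h) : State A (ω + ω / (20 * K)) (h + 8) := by
  obtain ⟨P, hPA, hPcard, k, hk, hrep⟩ := hS
  set r := ω / (20 * K) with hr
  have hKpos : 0 < K := by omega
  have hrmul : r * (20 * K) ≤ ω := Nat.div_mul_le_self _ _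
  have hrpos : 0 < r := Nat.div_pos hω1 (by omega)
  set y : ℕ := 2 ^ (4 * K) with hy
  have hy5 : y ^ 5 = 2 ^ (20 * K) := by
    rw [hy, ← pow_mul]
    congr 1
    ring
  have hy4 : y ^ 4 = 2 ^ (16 * K) := by
    rw [hy, ← pow_mul]
    congr 1
    ring
  set Q : ℕ := ∏ e ∈ P, e with hQ
  have hPprimes : ∀ e ∈ P, e.Prime := fun e he => (hA e (hPA he)).1
  have hQpos : 0 < Q := Finset.prod_pos fun e he => (hPprimes e he).pos
  set W : ℕ := 20 * K * ω with hW
  have hQle : Q ≤ 2 ^ W := by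
    calc Q ≤ (2 ^ (20 * K)) ^ #P :=
          Finset.prod_le_pow_card _ _ _ (fun e he => (hA e (hPA he)).2.2)
      _ = 2 ^ W := by rw [hPcard, ← pow_mul]
  set A' := A \ P with hA'
  have hA'sub : A' ⊆ A := Finset.sdiff_subset
  have hA'card : #A - ω ≤ #A' := by
    rw [hA', Finset.card_sdiff_of_subset hPA, hPcard]
  set v : ℕ := 2 * r * y ^ 4 * W with hv
  have hvpos : 0 < v := by
    rw [hv]
    have hWpos : 0 < W := by
      rw [hW]
      exact Nat.mul_pos (by omega) (by omega)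
    exact Nat.mul_pos (Nat.mul_pos (Nat.mul_pos two_pos hrpos) (by positivity)) hWpos
  have hvle : v ≤ 2 ^ (18 * K + 1) := by
    have h1 : r * W ≤ ω * ω := by
      rw [hW]
      calc r * (20 * K * ω) = (r * (20 * K)) * ω := by ring
        _ ≤ ω * ω := Nat.mul_le_mul_right _ hrmul
    have h2 : ω * ω ≤ 2 ^ K * 2 ^ K := Nat.mul_le_mul hω2.le hω2.le
    calc v = 2 * y ^ 4 * (r * W) := by rw [hv]; ring
      _ ≤ 2 * y ^ 4 * (2 ^ K * 2 ^ K) := Nat.mul_le_mul_left _ (h1.trans h2)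
      _ = 2 ^ (18 * K + 1) := by
        rw [hy4, ← pow_add, ← pow_succ', ← pow_add]
        congr 1
        ring
  have hrlt : r < 2 ^ K := lt_of_le_of_lt (Nat.div_le_self _ _) hω2
  have hcov := coverage Q.divisors A' y W v r (by positivity)
    (fun e he => ⟨(hA e (hA'sub he)).1, (hA e (hA'sub he)).2.1⟩)
    (fun e he => by rw [hy5]; exact (hA e (hA'sub he)).2.2)
    (fun p hp => cnt_le_of_divisors Q W hQle A' (fun e he => (hA e (hA'sub he)).1) p hp)
    hvpos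
    (by
      have h1 : (2 : ℕ) ^ (K + 1) = 2 ^ K + 2 ^ K := by rw [pow_succ]; ring
      omega)
    le_rfl
    (by
      rw [card_divisors_prod P hPprimes, hPcard]
      apply Nat.pow_le_pow_right (by norm_num)
      have : r * 240 ≤ ω := le_trans (Nat.mul_le_mul_left _ (by omega)) hrmul
      omega)
    (by
      rw [card_divisors_prod P hPprimes, hPcard, hy5, ← pow_mul]
      apply Nat.pow_le_pow_right (by norm_num)
      rw [mul_comm]
      exact hrmul)
    (by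
      rw [hy]
      calc 1024 * r ≤ 2 ^ 10 * 2 ^ K := by
            rw [show (1024 : ℕ) = 2 ^ 10 by norm_num]
            exact Nat.mul_le_mul_left _ hrlt.le
        _ = 2 ^ (10 + K) := by rw [pow_add]
        _ ≤ 2 ^ (4 * K) := Nat.pow_le_pow_right (by norm_num) (by omega))
  obtain ⟨P₂, hP₂sub, hP₂card, hP₂cov⟩ := hcov
  set E : ℕ := ∏ e ∈ P₂, e with hE
  have hP₂A : ∀ e ∈ P₂, e.Prime ∧ e ≠ 2 ∧ e ≤ 2 ^ (20 * K) := fun e he => hA e (hA'sub (hP₂sub he))
  have hEodd : Odd E := prod_primes_odd P₂ (fun e he => ⟨(hP₂A e he).1, (hP₂A e he).2.1⟩)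
  have hQodd : Odd Q := prod_primes_odd P (fun e he => ⟨(hA e (hPA he)).1, (hA e (hPA he)).2.1⟩)
  have hEgt1 : 1 < E := by
    obtain ⟨e, he⟩ : P₂.Nonempty := by
      apply Finset.card_pos.mp; omega
    have hprime := (hP₂A e he).1
    have hedvd : e ∣ E := Finset.dvd_prod_of_mem _ he
    have hEpos : 0 < E := Finset.prod_pos fun x hx => (hP₂A x hx).1.pos
    have := Nat.le_of_dvd hEpos hedvd
    have := hprime.two_le
    omega
  have hdisj : Disjoint P P₂ := by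
    rw [Finset.disjoint_left]
    intro e he he2
    exact (Finset.mem_sdiff.mp (hP₂sub he2)).2 he
  have hcop : Nat.Coprime Q E := by
    apply Nat.Coprime.prod_left
    intro x hx
    apply Nat.Coprime.prod_right
    intro z hz
    exact (Nat.coprime_primes (hPprimes x hx) (hP₂A z hz).1).mpr
      (fun h => Finset.disjoint_left.mp hdisj hx (h ▸ hz))
  set M := 2 ^ k * Q ^ 2 with hM
  have hMpos : 0 < M := by positivity
  have hstep1 := rep_step M E h hMpos hEgt1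
    (digits_ok Q k E M hk hQpos hQodd hcop hEodd hEgt1 hMpos dvd_rfl hP₂cov) hrep
  have hstep2 := rep_step (M * E) E (h + 4) (by positivity) hEgt1
    (digits_ok Q k E (M * E) hk hQpos hQodd hcop hEodd hEgt1 (by positivity)
      (Dvd.intro _ rfl) hP₂cov) hstep1
  refine ⟨P ∪ P₂, Finset.union_subset hPA (hP₂sub.trans hA'sub), ?_, k, hk, ?_⟩
  · rw [Finset.card_union_of_disjoint hdisj, hPcard, hP₂card]
  · rw [Finset.prod_union hdisj]
    have : 2 ^ k * (Q * E) ^ 2 = M * E * E := by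
      rw [hM]
      ring
    rw [this]
    exact hstep2

end StageThm

end Vale.Agent.Lib.P012
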