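import Vale.Agent.Lib.P012.Greedy

namespace Vale.Agent.Lib.P012

open Finset

section SumBound

lemma squarefree_prod_primes (P : Finset ℕ) (hP : ∀ e ∈ P, e.Prime) :
    Squarefree (∏ e ∈ P, e) := by
  refine Finset.squarefree_prod_of_pairwise_isCoprime (fun _ hp _ hq hpq ↦ ?_)
    fun _ hp ↦ (hP _ hp).prime.squarefree
  simp only [Function.onFun, ← Nat.coprime_iff_isRelPrime]
  exact (Nat.coprime_primes (hP _ hp) (hP _ hq)).mpr hpq

theorem sum_group {E : ℕ} [NeZero E] (P : Finset ℕ) (hP : ∀ e ∈ P, e.Prime)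
    (hE : E = ∏ e ∈ P, e) (G : ℕ → ℝ) (hG : ∀ n, 0 ≤ G n) :
    ∑ t ∈ (Finset.univ.erase (0 : ZMod E)), G (addOrderOf t) ≤
      ∑ I ∈ P.powerset.erase ∅, ((∏ e ∈ I, e : ℕ) : ℝ) * G (∏ e ∈ I, e) := by
  classical
  have hsq : Squarefree E := hE ▸ squarefree_prod_primes P hP
  have hE0 : E ≠ 0 := NeZero.ne E
  have hfacts : ∀ t ∈ (Finset.univ.erase (0 : ZMod E)),
      (addOrderOf t).primeFactors ∈ P.powerset.erase ∅ ∧
        addOrderOf t = ∏ e ∈ (addOrderOf t).primeFactors, e := by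
    intro t ht
    have ht0 : t ≠ 0 := (Finset.mem_erase.mp ht).1
    have hdvd : addOrderOf t ∣ E := addOrderOf_dvd_of_nsmul_eq_zero (by simp)
    have hd1 : addOrderOf t ≠ 1 := by rwa [Ne, AddMonoid.addOrderOf_eq_one_iff]
    have hd0 : addOrderOf t ≠ 0 := by
      intro h0
      rw [h0] at hdvd
      exact hE0 (zero_dvd_iff.mp hdvd)
    have hsqd : Squarefree (addOrderOf t) := hsq.squarefree_of_dvd hdvd
    refine ⟨?_, (Nat.prod_primeFactors_of_squarefree hsqd).symm⟩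
    rw [Finset.mem_erase, Finset.mem_powerset]
    constructor
    · exact Finset.nonempty_iff_ne_empty.mp (Nat.nonempty_primeFactors.mpr (by omega))
    · have : (addOrderOf t).primeFactors ⊆ E.primeFactors := Nat.primeFactors_mono hdvd hE0
      have h2 : E.primeFactors = P := by
        rw [hE]
        exact Nat.primeFactors_prod hP
      rwa [h2] at this
  rw [← Finset.sum_fiberwise_of_maps_to (fun t ht => (hfacts t ht).1)]
  refine Finset.sum_le_sum fun I hI => ?_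
  have hIP : I ⊆ P := Finset.mem_powerset.mp (Finset.mem_of_mem_erase hI)
  have hdpos : 0 < ∏ e ∈ I, e := Finset.prod_pos fun e he => (hP e (hIP he)).pos
  have hcongr : ∀ t ∈ (Finset.univ.erase (0 : ZMod E)).filter
      (fun t => (addOrderOf t).primeFactors = I), G (addOrderOf t) = G (∏ e ∈ I, e) := by
    intro t ht
    have ht' := Finset.mem_filter.mp ht
    have := (hfacts t ht'.1).2
    rw [ht'.2] at this
    rw [this]
  rw [Finset.sum_congr rfl hcongr, Finset.sum_const, nsmul_eq_mul]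
  apply mul_le_mul_of_nonneg_right _ (hG _)
  have hcard : #((Finset.univ.erase (0 : ZMod E)).filter
      (fun t => (addOrderOf t).primeFactors = I)) ≤ ∏ e ∈ I, e := by
    refine le_trans (Finset.card_le_card ?_)
      (IsAddCyclic.card_nsmul_eq_zero_le (α := ZMod E) hdpos)
    intro t ht
    have ht' := Finset.mem_filter.mp ht
    have h2 := (hfacts t ht'.1).2
    rw [ht'.2] at h2
    simp only [Finset.mem_filter, Finset.mem_univ, true_and]
    rw [← h2]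
    exact addOrderOf_nsmul_eq_zero t
  exact_mod_cast hcard

lemma add_pow_four_le (x y : ℝ) : (x + y) ^ 4 ≤ 8 * (x ^ 4 + y ^ 4) := by
  have h1 : (x + y) ^ 2 ≤ 2 * (x ^ 2 + y ^ 2) := by nlinarith [sq_nonneg (x - y)]
  have h2 : ((x + y) ^ 2) ^ 2 ≤ (2 * (x ^ 2 + y ^ 2)) ^ 2 :=
    pow_le_pow_left₀ (sq_nonneg _) h1 2
  have h3 : (x ^ 2 + y ^ 2) ^ 2 ≤ 2 * (x ^ 4 + y ^ 4) := by nlinarith [sq_nonneg (x ^ 2 - y ^ 2)]
  nlinarith [h2, h3]

/-- The term bound for a single nonempty set of primes. -/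
lemma term_bound (d C θ N a : ℝ) (hd : 0 ≤ d) (hC : 0 ≤ C) (hθ : 0 ≤ θ) (ha : 0 < a)
    (hdθ : d ≤ θ) (hda : d ≤ a ^ 5) (hCN : C ≤ θ + N) (hN0 : 0 ≤ N)
    (hN : N * a ^ 4 ≤ 2 * θ ^ 2) :
    d * (d * C ^ 2) ^ 2 ≤ 8 * θ ^ 7 + 128 * θ ^ 8 * (1 / a) := by
  set η := 2 * θ ^ 2 / a ^ 4 with hη
  have hηnn : 0 ≤ η := by positivity
  have hNη : N ≤ η := by
    rw [hη, le_div_iff₀ (by positivity)]
    exact hN
  have hC2 : C ≤ θ + η := by linarith
  have hC4 : C ^ 4 ≤ 8 * (θ ^ 4 + η ^ 4) :=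
    (pow_le_pow_left₀ hC hC2 4).trans (add_pow_four_le θ η)
  have h1 : d * (d * C ^ 2) ^ 2 = d ^ 3 * C ^ 4 := by ring
  rw [h1]
  have h2 : d ^ 3 * C ^ 4 ≤ d ^ 3 * (8 * (θ ^ 4 + η ^ 4)) :=
    mul_le_mul_of_nonneg_left hC4 (by positivity)
  have h3 : d ^ 3 * (8 * θ ^ 4) ≤ 8 * θ ^ 7 := by
    have : d ^ 3 ≤ θ ^ 3 := pow_le_pow_left₀ hd hdθ 3
    nlinarith [mul_le_mul_of_nonneg_right this (by positivity : 0 ≤ 8 * θ ^ 4)]
  have h4 : d ^ 3 * (8 * η ^ 4) ≤ 128 * θ ^ 8 * (1 / a) := by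
    have h5 : d ^ 3 ≤ (a ^ 5) ^ 3 := pow_le_pow_left₀ hd hda 3
    have h6 : (a ^ 5) ^ 3 * (8 * η ^ 4) = 128 * θ ^ 8 * (1 / a) := by
      rw [hη]
      field_simp
      ring
    rw [← h6]
    exact mul_le_mul_of_nonneg_right h5 (by positivity)
  nlinarith [h2, h3, h4]

theorem sum_bnd_lt {E : ℕ} [NeZero E] (D P : Finset ℕ) (y : ℕ) (hy : 0 < y)
    (hP : ∀ e ∈ P, e.Prime) (hE : E = ∏ e ∈ P, e) (hle : ∀ e ∈ P, e ≤ y ^ 5)
    (hθ : 0 < #D) (h1 : E ≤ #D) (h2 : 2 ^ (#P + 5) ≤ #D) (h3 : 1024 * #P ≤ y)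
    (hN : ∀ I ⊆ P, (offN D I : ℝ) * ((y : ℝ) ^ 4) ^ #I ≤ 2 * (#D : ℝ) ^ 2) :
    ∑ t ∈ (Finset.univ.erase (0 : ZMod E)), (bnd D t) ^ 2 < (#D : ℝ) ^ 8 := by
  classical
  set θ : ℝ := (#D : ℝ) with hθdef
  have hθpos : 0 < θ := by rw [hθdef]; exact_mod_cast hθ
  have hypos : (0 : ℝ) < y := by exact_mod_cast hy
  set G : ℕ → ℝ := fun d => ((d : ℝ) * (coll_ord D d : ℝ) ^ 2) ^ 2 with hG
  have hGnn : ∀ n, 0 ≤ G n := fun n => by simp only [hG]; positivity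
  have hstep := sum_group P hP hE G hGnn
  have hbnd : ∀ t : ZMod E, (bnd D t) ^ 2 = G (addOrderOf t) := fun t => rfl
  simp_rw [hbnd]
  refine lt_of_le_of_lt hstep ?_
  have hterm : ∀ I ∈ P.powerset.erase ∅, ((∏ e ∈ I, e : ℕ) : ℝ) * G (∏ e ∈ I, e) ≤
      8 * θ ^ 7 + 128 * θ ^ 8 * ((1 / (y : ℝ)) ^ #I) := by
    intro I hI
    have hIP : I ⊆ P := Finset.mem_powerset.mp (Finset.mem_of_mem_erase hI)
    set d : ℕ := ∏ e ∈ I, e with hd
    set a : ℝ := (y : ℝ) ^ #I with ha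
    have hapos : 0 < a := by positivity
    have hdvd : d ∣ E := by
      rw [hE]
      exact Finset.prod_dvd_prod_of_subset _ _ _ hIP
    have hdE : d ≤ E := Nat.le_of_dvd (Nat.pos_of_ne_zero (NeZero.ne E)) hdvd
    have hdθ : (d : ℝ) ≤ θ := by
      rw [hθdef]
      exact_mod_cast hdE.trans h1
    have hda : (d : ℝ) ≤ a ^ 5 := by
      have : d ≤ (y ^ 5) ^ #I := Finset.prod_le_pow_card _ _ _ (fun e he => hle e (hIP he))
      have h' : (d : ℝ) ≤ (((y : ℝ) ^ 5) ^ #I) := by exact_mod_cast this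
      rw [ha, ← pow_mul, mul_comm, pow_mul]
      exact h'
    have hCN : (coll_ord D d : ℝ) ≤ θ + offN D I := by
      have := coll_ord_le D I (dvd_prod_int I)
      rw [hθdef]
      exact_mod_cast this
    have hN' : (offN D I : ℝ) * a ^ 4 ≤ 2 * θ ^ 2 := by
      have := hN I hIP
      rw [ha, ← pow_mul, mul_comm #I 4, pow_mul]
      exact this
    have := term_bound (d : ℝ) (coll_ord D d : ℝ) θ (offN D I : ℝ) a (by positivity) (by positivity)
      hθpos.le hapos hdθ hda hCN (by positivity) hN'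
    have ha1 : (1 / (y : ℝ)) ^ #I = 1 / a := by
      rw [ha, one_div_pow]
    rw [ha1]
    exact this
  refine lt_of_le_of_lt (Finset.sum_le_sum hterm) ?_
  rw [Finset.sum_add_distrib, Finset.sum_const, nsmul_eq_mul, ← Finset.mul_sum]
  set x : ℝ := 1 / (y : ℝ) with hx
  have hxnn : 0 ≤ x := by positivity
  have hpow : ∑ I ∈ P.powerset.erase ∅, x ^ #I = (1 + x) ^ #P - 1 := by
    have h5 := Finset.sum_pow_mul_eq_add_pow x 1 P
    have h6 : ∑ I ∈ P.powerset, x ^ #I = (1 + x) ^ #P := by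
      rw [add_comm, ← h5]
      simp
    rw [← h6, ← Finset.add_sum_erase _ _ (Finset.empty_mem_powerset P)]
    simp
  rw [hpow]
  set r : ℕ := #P with hr
  have hrx : 2 * (r : ℝ) * x ≤ 1 / 512 := by
    rw [hx]
    have h7 : (1024 : ℝ) * r ≤ y := by exact_mod_cast h3
    rw [mul_one_div, div_le_iff₀ hypos]
    linarith
  have hpowle : (1 + x) ^ r ≤ 1 + 2 * r * x := one_add_pow_le x hxnn r (by linarith)
  have hcard : ((#(P.powerset.erase ∅) : ℕ) : ℝ) ≤ 2 ^ r := by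
    have h8 : #(P.powerset.erase ∅) ≤ 2 ^ r := by
      refine (Finset.card_le_card (Finset.erase_subset _ _)).trans ?_
      rw [Finset.card_powerset]
    exact_mod_cast h8
  have h2r : (2 : ℝ) ^ (r + 5) ≤ θ := by
    rw [hθdef]
    exact_mod_cast h2
  have h9 : ((#(P.powerset.erase ∅) : ℕ) : ℝ) * (8 * θ ^ 7) ≤ θ ^ 8 / 4 := by
    have h10 : (2 : ℝ) ^ r * 32 ≤ θ := by
      calc (2 : ℝ) ^ r * 32 = 2 ^ (r + 5) := by ring
        _ ≤ θ := h2r
    have h11 : ((#(P.powerset.erase ∅) : ℕ) : ℝ) * 32 ≤ θ := by nlinarith [hcard]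
    have h12 : 0 ≤ θ ^ 7 := by positivity
    nlinarith [mul_le_mul_of_nonneg_right h11 h12]
  have h13 : 128 * θ ^ 8 * ((1 + x) ^ r - 1) ≤ θ ^ 8 / 4 := by
    have h14 : (1 + x) ^ r - 1 ≤ 1 / 512 := by linarith
    have h15 : 0 ≤ θ ^ 8 := by positivity
    nlinarith [mul_le_mul_of_nonneg_left h14 h15]
  have h16 : 0 < θ ^ 8 := by positivity
  linarith

end SumBound

end Vale.Agent.Lib.P012
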